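import Vale.Agent.P143.H726.Defs
import Mathlib.MeasureTheory.Integral.Bochner.Basic

/-!
Random subsets whose generating polynomials have no zeros in a region.
-/

namespace Vale.Agent.N143

open MeasureTheory

/-- The generating polynomial `E ∏_{x ∈ F ∩ ω} z_x` of the marginal of `μ` on the finite set `F`. -/
noncomputable def genPoly {X : Type*} (μ : Measure (X → Bool)) (F : Finset X) (z : X → ℂ) : ℂ :=
  ∫ ω, ∏ x ∈ F, (if ω x = true then z x else 1) ∂μ

/-- `μ` is a probability measure, and the generating polynomials of its finite marginals do not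
vanish when all variables lie in `D`. -/
def ZeroFree {X : Type*} (D : Set ℂ) (μ : Measure (X → Bool)) : Prop :=
  IsProbabilityMeasure μ ∧ ∀ (F : Finset X) (z : X → ℂ), (∀ x ∈ F, z x ∈ D) → genPoly μ F z ≠ 0

/-- Strongly Rayleigh measures: no zeros in the open upper half-plane. -/
def IsStronglyRayleigh {X : Type*} (μ : Measure (X → Bool)) : Prop :=
  ZeroFree {z | 0 < z.im} μ

/-- Hurwitz stable measures: no zeros in the open right half-plane. -/
def IsHurwitz {X : Type*} (μ : Measure (X → Bool)) : Prop :=
  ZeroFree {z | 0 < z.re} μ

end Vale.Agent.N143
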