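import Vale.Agent.N143.Disc
import Vale.Agent.P143.H536.Asm
import Mathlib.LinearAlgebra.Matrix.ToLinearEquiv

/-!
Determinantal measures are strongly Rayleigh, and the converse fails.
-/

namespace Vale.Agent.N143

open Filter Topology MeasureTheory Vale.Agent.P143 Matrix
open scoped ENNReal NNReal ComplexOrder

theorem genPoly_expand {X : Type*} (μ : Measure (X → Bool)) [IsProbabilityMeasure μ]
    (F : Finset X) (z : X → ℂ) : genPoly μ F z =
      ∑ R ∈ F.powerset, (∏ x ∈ R, (z x - 1)) * (μ.real {ω | ∀ x ∈ R, ω x = true} : ℝ) := by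
  classical
  have h1 : ∀ ω : X → Bool, ∏ x ∈ F, (if ω x = true then z x else 1) = ∑ R ∈ F.powerset,
      Set.indicator {ω : X → Bool | ∀ x ∈ R, ω x = true} (fun _ => ∏ x ∈ R, (z x - 1)) ω := by
    intro ω
    have h2 : ∀ x ∈ F, (if ω x = true then z x else 1) =
        1 + (if ω x = true then z x - 1 else 0) := fun x _ => by split_ifs <;> ring
    rw [Finset.prod_congr rfl h2, Finset.prod_one_add]
    refine Finset.sum_congr rfl fun R _ => ?_
    by_cases h : ∀ x ∈ R, ω x = true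
    · rw [Set.indicator_of_mem (by exact h)]
      exact Finset.prod_congr rfl fun x hx => if_pos (h x hx)
    · rw [Set.indicator_of_notMem (by exact h)]
      push Not at h
      obtain ⟨x, hx, hx'⟩ := h
      exact Finset.prod_eq_zero hx (if_neg hx')
  unfold genPoly
  simp only [h1]
  rw [integral_finsetSum _ fun R _ => (integrable_const _).indicator (H536.measurableSet_incl R)]
  refine Finset.sum_congr rfl fun R _ => ?_
  rw [integral_indicator_const _ (H536.measurableSet_incl R), Complex.real_smul, mul_comm]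

theorem det_ne_zero {n : Type*} [Fintype n] [DecidableEq n] {K : Matrix n n ℂ}
    (hK : K.IsHermitian) {z : n → ℂ} (hz : ∀ i, 0 < (z i).im) :
    (1 + diagonal (fun i => z i - 1) * K).det ≠ 0 := by
  intro h0
  obtain ⟨v, hv, h⟩ := exists_mulVec_eq_zero_iff.2 h0
  rw [add_mulVec, one_mulVec, ← mulVec_mulVec] at h
  have h1 : ∀ i, v i + (z i - 1) * (K *ᵥ v) i = 0 := fun i => by
    have := congrFun h i
    rwa [Pi.add_apply, mulVec_diagonal] at this
  have h2 : (star (K *ᵥ v) ⬝ᵥ v).im = 0 := by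
    have h3 : star (star (K *ᵥ v) ⬝ᵥ v) = star (K *ᵥ v) ⬝ᵥ v := by
      rw [← star_dotProduct, star_mulVec, hK.eq, dotProduct_mulVec]
    exact Complex.conj_eq_iff_im.1 h3
  have h3 : ∑ i, (z i).im * Complex.normSq ((K *ᵥ v) i) = 0 := by
    rw [← neg_eq_zero, ← h2, dotProduct, Complex.im_sum, ← Finset.sum_neg_distrib]
    refine Finset.sum_congr rfl fun i _ => ?_
    rw [eq_neg_of_add_eq_zero_left (h1 i), Pi.star_apply]
    generalize (K *ᵥ v) i = u
    simp [Complex.normSq_apply]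
    ring
  have h4 := (Finset.sum_eq_zero_iff_of_nonneg fun i _ =>
    mul_nonneg (hz i).le (Complex.normSq_nonneg _)).1 h3
  refine hv (funext fun i => ?_)
  have h5 := Complex.normSq_eq_zero.1
    ((mul_eq_zero.1 (h4 i (Finset.mem_univ i))).resolve_left (hz i).ne')
  simpa [h5] using h1 i

/-- determinantal measures are strongly Rayleigh -/
theorem det_stronglyRayleigh {X : Type*} [DecidableEq X] {μ : Measure (X → Bool)}
    (h : Det.IsDeterminantal μ) : IsStronglyRayleigh μ := by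
  obtain ⟨Q, ⟨hQ, -⟩, hp, hμ⟩ := h
  refine ⟨hp, fun F z hz => ?_⟩
  have h1 : genPoly μ F z = (1 + diagonal (fun f : F => z f - 1) *
      Q.submatrix (fun x : F => (x : X)) (fun x : F => (x : X))).det := by
    rw [genPoly_expand, H71.det_one_add_diagonal_mul]
    refine Finset.sum_nbij' (fun R => R.subtype (· ∈ F))
      (fun s => s.map (Function.Embedding.subtype _)) ?_ ?_ ?_ ?_ ?_
    · intro R _; exact Finset.mem_univ _
    · intro s _
      rw [Finset.mem_powerset]
      intro f hf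
      obtain ⟨g, _, rfl⟩ := Finset.mem_map.1 hf
      exact g.2
    · intro R hR
      rw [Finset.mem_powerset] at hR
      rw [Finset.subtype_map_of_mem]
      exact fun x hx => hR hx
    · intro s _
      ext x
      simp
    · intro R hR
      rw [Finset.mem_powerset] at hR
      congr 1
      · rw [Finset.prod_subtype_of_mem (f := fun j => z j - 1) (p := (· ∈ F))
          (fun x hx => hR hx)]
      · rw [hμ R]
        let e : (R.subtype (· ∈ F) : Finset F) ≃ R :=
          { toFun := fun x => ⟨x.1.1, Finset.mem_subtype.1 x.2⟩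
            invFun := fun x => ⟨⟨x.1, hR x.2⟩, Finset.mem_subtype.2 x.2⟩
            left_inv := fun x => rfl
            right_inv := fun x => rfl }
        rw [← Matrix.det_submatrix_equiv_self e]
        rfl
  rw [h1]
  exact det_ne_zero (hQ.isHermitian.submatrix _) fun i => hz i i.2

/-- the uniform random two-element subset of a five-element set -/
noncomputable def pairs : Measure (Fin 5 → Bool) :=
  ∑ T ∈ (Finset.univ : Finset (Fin 5)).powersetCard 2,
    (10⁻¹ : ℝ≥0∞) • Measure.dirac fun x => decide (x ∈ T)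

theorem pairs_apply (A : Set (Fin 5 → Bool)) [DecidablePred (· ∈ A)] :
    pairs A = 10⁻¹ * ((((Finset.univ : Finset (Fin 5)).powersetCard 2).filter
      fun T => (fun x => decide (x ∈ T)) ∈ A).card : ℕ) := by
  unfold pairs
  rw [Measure.finsetSum_apply, Finset.card_filter, Nat.cast_sum, Finset.mul_sum]
  refine Finset.sum_congr rfl fun T _ => ?_
  rw [Measure.smul_apply, Measure.dirac_apply, smul_eq_mul, Set.indicator_apply]
  split_ifs <;> simp

theorem prob_pairs : IsProbabilityMeasure pairs := ⟨by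
  classical
  rw [pairs_apply]
  simp only [Set.mem_univ, Finset.filter_true, Finset.card_powersetCard, Finset.card_univ,
    Fintype.card_fin]
  exact ENNReal.inv_mul_cancel (by norm_num) (by norm_num)⟩

theorem pairs_real (R : Finset (Fin 5)) : pairs.real {ω | ∀ x ∈ R, ω x = true} =
    ((((Finset.univ : Finset (Fin 5)).powersetCard 2).filter fun T => R ⊆ T).card : ℝ) / 10 := by
  classical
  rw [measureReal_def, pairs_apply, ENNReal.toReal_mul, ENNReal.toReal_inv,
    ENNReal.toReal_natCast, div_eq_inv_mul]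
  congr 3
  ext T
  simp [Finset.subset_iff]

theorem e2_ne_zero (z : Fin 5 → ℂ) (hz : ∀ i, 0 < (z i).im) :
    (∑ i, z i) ^ 2 - ∑ i, z i ^ 2 ≠ 0 := by
  intro h
  have h1 := congrArg Complex.re h
  have h2 := congrArg Complex.im h
  have cs := Finset.sum_mul_sq_le_sq_mul_sq Finset.univ (fun i => (z i).re) fun i => (z i).im
  have hy : ∑ i, (z i).im ^ 2 < (∑ i, (z i).im) ^ 2 := by
    simp only [Fin.sum_univ_five]
    have := hz 0; have := hz 1; have := hz 2; have := hz 3; have := hz 4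
    nlinarith [mul_pos (hz 0) (hz 1), mul_pos (hz 0) (hz 2), mul_pos (hz 0) (hz 3),
      mul_pos (hz 0) (hz 4), mul_pos (hz 1) (hz 2), mul_pos (hz 1) (hz 3), mul_pos (hz 1) (hz 4),
      mul_pos (hz 2) (hz 3), mul_pos (hz 2) (hz 4), mul_pos (hz 3) (hz 4)]
  have e1 : (∑ i, (z i).re) ^ 2 - ∑ i, (z i).re ^ 2 = (∑ i, (z i).im) ^ 2 - ∑ i, (z i).im ^ 2 := by
    simp only [Fin.sum_univ_five, pow_two, Complex.sub_re, Complex.mul_re, Complex.add_re,
      Complex.add_im, Complex.zero_re] at h1 ⊢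
    linarith
  have e2 : ∑ i, (z i).re * (z i).im = (∑ i, (z i).re) * ∑ i, (z i).im := by
    simp only [Fin.sum_univ_five, pow_two, Complex.sub_im, Complex.mul_im, Complex.add_re,
      Complex.add_im, Complex.zero_im] at h2 ⊢
    linarith
  have a0 : 0 ≤ ∑ i, (z i).re ^ 2 := Finset.sum_nonneg fun _ _ => sq_nonneg _
  have b0 : 0 ≤ ∑ i, (z i).im ^ 2 := Finset.sum_nonneg fun _ _ => sq_nonneg _
  rw [e2, mul_pow] at cs
  have := mul_lt_mul'' (show ∑ i, (z i).re ^ 2 < (∑ i, (z i).re) ^ 2 by linarith) hy a0 b0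
  linarith

theorem pairs_stronglyRayleigh : IsStronglyRayleigh pairs := by
  refine ⟨prob_pairs, fun F z hz => ?_⟩
  set u : Fin 5 → ℂ := fun x => if x ∈ F then z x else 1 with hu
  have h1 : genPoly pairs F z = 20⁻¹ * ((∑ i, u i) ^ 2 - ∑ i, u i ^ 2) := by
    unfold genPoly pairs
    rw [integral_finsetSum_measure fun _ _ => Integrable.of_finite.smul_measure (by simp)]
    have h2 : ∀ T ∈ (Finset.univ : Finset (Fin 5)).powersetCard 2,
        ∫ ω, ∏ x ∈ F, (if ω x = true then z x else 1)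
          ∂((10⁻¹ : ℝ≥0∞) • Measure.dirac fun x => decide (x ∈ T)) = 10⁻¹ * ∏ x ∈ T, u x := by
      intro T _
      rw [integral_smul_measure, integral_dirac, hu, ← Finset.prod_filter, ← Finset.prod_filter]
      simp only [decide_eq_true_eq, Finset.filter_mem_eq_inter, Finset.inter_comm F T]
      simp
    rw [Finset.sum_congr rfl h2, show (Finset.univ : Finset (Fin 5)).powersetCard 2 =
      {{0, 1}, {0, 2}, {0, 3}, {0, 4}, {1, 2}, {1, 3}, {1, 4}, {2, 3}, {2, 4}, {3, 4}} by decide]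
    repeat rw [Finset.sum_insert (by decide)]
    repeat rw [Finset.prod_pair (by decide)]
    rw [Finset.sum_singleton, Finset.prod_pair (by decide), Fin.sum_univ_five, Fin.sum_univ_five]
    ring
  obtain ⟨η, hη⟩ : ∃ η : ℝ, 0 < η ∧ ∀ i, 0 < (u i).im + η * (u i).re := by
    refine (eventually_mem_nhdsWithin.and (f := 𝓝[>] (0 : ℝ)) (eventually_all.2 fun i => ?_)).exists
    by_cases hi : i ∈ F
    · have h3 : Continuous fun η : ℝ => (u i).im + η * (u i).re := by fun_prop
      refine ((h3.tendsto 0).mono_left nhdsWithin_le_nhds).eventually (lt_mem_nhds ?_)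
      simpa [hu, hi] using hz i hi
    · filter_upwards [self_mem_nhdsWithin] with η hη
      simpa [hu, hi] using hη
  have h2 := e2_ne_zero (fun i => (1 + η * Complex.I) * u i) fun i => by
    simpa [add_comm] using hη.2 i
  rw [h1]
  refine mul_ne_zero (by norm_num) fun h0 => h2 ?_
  simp only [← Finset.mul_sum, mul_pow]
  rw [← mul_sub, h0, mul_zero]

theorem det_four (A : Matrix (Fin 4) (Fin 4) ℂ) : A.det =
    A 0 0 * (A 1 1 * A 2 2 * A 3 3 - A 1 1 * A 2 3 * A 3 2 - A 1 2 * A 2 1 * A 3 3 +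
      A 1 2 * A 2 3 * A 3 1 + A 1 3 * A 2 1 * A 3 2 - A 1 3 * A 2 2 * A 3 1) -
    A 0 1 * (A 1 0 * A 2 2 * A 3 3 - A 1 0 * A 2 3 * A 3 2 - A 1 2 * A 2 0 * A 3 3 +
      A 1 2 * A 2 3 * A 3 0 + A 1 3 * A 2 0 * A 3 2 - A 1 3 * A 2 2 * A 3 0) +
    A 0 2 * (A 1 0 * A 2 1 * A 3 3 - A 1 0 * A 2 3 * A 3 1 - A 1 1 * A 2 0 * A 3 3 +
      A 1 1 * A 2 3 * A 3 0 + A 1 3 * A 2 0 * A 3 1 - A 1 3 * A 2 1 * A 3 0) -
    A 0 3 * (A 1 0 * A 2 1 * A 3 2 - A 1 0 * A 2 2 * A 3 1 - A 1 1 * A 2 0 * A 3 2 +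
      A 1 1 * A 2 2 * A 3 0 + A 1 2 * A 2 0 * A 3 1 - A 1 2 * A 2 1 * A 3 0) := by
  rw [det_succ_row_zero, Fin.sum_univ_four]
  simp only [det_fin_three, submatrix_apply]
  change (-1) ^ 0 * _ * (A 1 1 * A 2 2 * A 3 3 - A 1 1 * A 2 3 * A 3 2 - A 1 2 * A 2 1 * A 3 3 +
      A 1 2 * A 2 3 * A 3 1 + A 1 3 * A 2 1 * A 3 2 - A 1 3 * A 2 2 * A 3 1) +
    (-1) ^ 1 * _ * (A 1 0 * A 2 2 * A 3 3 - A 1 0 * A 2 3 * A 3 2 - A 1 2 * A 2 0 * A 3 3 +
      A 1 2 * A 2 3 * A 3 0 + A 1 3 * A 2 0 * A 3 2 - A 1 3 * A 2 2 * A 3 0) +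
    (-1) ^ 2 * _ * (A 1 0 * A 2 1 * A 3 3 - A 1 0 * A 2 3 * A 3 1 - A 1 1 * A 2 0 * A 3 3 +
      A 1 1 * A 2 3 * A 3 0 + A 1 3 * A 2 0 * A 3 1 - A 1 3 * A 2 1 * A 3 0) +
    (-1) ^ 3 * _ * (A 1 0 * A 2 1 * A 3 2 - A 1 0 * A 2 2 * A 3 1 - A 1 1 * A 2 0 * A 3 2 +
      A 1 1 * A 2 2 * A 3 0 + A 1 2 * A 2 0 * A 3 1 - A 1 2 * A 2 1 * A 3 0) = _
  ring

theorem pairs_not_determinantal : ¬ Det.IsDeterminantal pairs := by
  rintro ⟨Q, -, -, h⟩
  have key : ∀ {k : ℕ} (f : Fin k ↪ Fin 5), (Q.submatrix f f).det =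
      ((((Finset.univ : Finset (Fin 5)).powersetCard 2).filter
        fun T => Finset.univ.map f ⊆ T).card : ℂ) / 10 := by
    intro k f
    have h1 := h (Finset.univ.map f)
    rw [pairs_real] at h1
    let e : Fin k ≃ (Finset.univ.map f : Finset (Fin 5)) := Equiv.ofBijective
      (fun i => ⟨f i, Finset.mem_map_of_mem _ (Finset.mem_univ i)⟩)
      ⟨fun i j hij => f.injective (congrArg Subtype.val hij), fun ⟨x, hx⟩ => by
        obtain ⟨i, -, rfl⟩ := Finset.mem_map.1 hx
        exact ⟨i, rfl⟩⟩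
    rw [← Matrix.det_submatrix_equiv_self e] at h1
    push_cast at h1
    exact h1.symm
  have d : ∀ i, Q i i = 2 / 5 := by
    intro i
    have hinj : Function.Injective ![i] := fun a b _ => Subsingleton.elim a b
    have h1 := key ⟨![i], hinj⟩
    have h2 : ∀ (i : Fin 5) (hinj : Function.Injective ![i]),
        (((Finset.univ : Finset (Fin 5)).powersetCard 2).filter fun T => Finset.univ.map
        (⟨![i], hinj⟩ : Fin 1 ↪ Fin 5) ⊆ T).card = 4 := by decide
    rw [h2 i hinj, det_unique] at h1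
    exact h1.trans (by norm_num)
  have p : ∀ i j, i ≠ j → Q i j * Q j i = 3 / 50 := by
    intro i j hij
    have hinj : Function.Injective ![i, j] := by
      intro a b; fin_cases a <;> fin_cases b <;> simp [hij, hij.symm]
    have h1 := key ⟨![i, j], hinj⟩
    have h2 : ∀ (i j : Fin 5) (hinj : Function.Injective ![i, j]),
        (((Finset.univ : Finset (Fin 5)).powersetCard 2).filter fun T => Finset.univ.map
        (⟨![i, j], hinj⟩ : Fin 2 ↪ Fin 5) ⊆ T).card = 1 := by decide
    rw [h2, det_fin_two] at h1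
    simp [d] at h1
    linear_combination -h1
  have t : ∀ i j k, i ≠ j → i ≠ k → j ≠ k →
      Q i j * Q j k * Q k i + Q i k * Q k j * Q j i = 1 / 125 := by
    intro i j k hij hik hjk
    have hinj : Function.Injective ![i, j, k] := by
      intro a b
      fin_cases a <;> fin_cases b <;> simp [hij, hij.symm, hik, hik.symm, hjk, hjk.symm]
    have h1 := key ⟨![i, j, k], hinj⟩
    have h2 : ∀ (i j k : Fin 5) (hinj : Function.Injective ![i, j, k]),
        (((Finset.univ : Finset (Fin 5)).powersetCard 2).filter fun T => Finset.univ.map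
        (⟨![i, j, k], hinj⟩ : Fin 3 ↪ Fin 5) ⊆ T).card = 0 := by decide
    rw [h2, det_fin_three] at h1
    simp [d] at h1
    linear_combination h1 + 2 / 5 * (p i j hij + p i k hik + p j k hjk)
  -- four-cycles take one of two values
  have q : ∀ i j k l, i ≠ j → i ≠ k → i ≠ l → j ≠ k → k ≠ l →
      (Q i j * Q j k * Q k l * Q l i + Q i l * Q l k * Q k j * Q j i = 9 / 1250) ∨
      (Q i j * Q j k * Q k l * Q l i + Q i l * Q l k * Q k j * Q j i = -23 / 3750) := by
    intro i j k l hij hik hil hjk hkl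
    have a1 := t i j k hij hik hjk
    have a2 := t i k l hik hil hkl
    have m1 : Q i j * Q j k * Q k i * (Q i k * Q k j * Q j i) = (3 / 50) ^ 3 := by
      linear_combination (Q j k * Q k j * (Q i k * Q k i)) * p i j hij +
        3 / 50 * (Q i k * Q k i) * p j k hjk + (3 / 50) ^ 2 * p i k hik
    have m2 : Q i k * Q k l * Q l i * (Q i l * Q l k * Q k i) = (3 / 50) ^ 3 := by
      linear_combination (Q k l * Q l k * (Q i l * Q l i)) * p i k hik +
        3 / 50 * (Q i l * Q l i) * p k l hkl + (3 / 50) ^ 2 * p i l hil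
    have m3 : 3 / 50 * (Q i j * Q j k * Q k l * Q l i + Q i l * Q l k * Q k j * Q j i) =
        Q i j * Q j k * Q k i * (Q i k * Q k l * Q l i) +
          Q i k * Q k j * Q j i * (Q i l * Q l k * Q k i) := by
      linear_combination -(Q i j * Q j k * Q k l * Q l i + Q i l * Q l k * Q k j * Q j i) *
        p i k hik
    generalize Q i j * Q j k * Q k l * Q l i + Q i l * Q l k * Q k j * Q j i = ρ at *
    generalize Q i j * Q j k * Q k i = s₁ at *
    generalize Q i k * Q k j * Q j i = s₂ at *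
    generalize Q i k * Q k l * Q l i = r₁ at *
    generalize Q i l * Q l k * Q k i = r₂ at *
    have h3 : (r₁ - s₁) * (r₁ - s₂) = 0 := by
      linear_combination r₁ * a2 - m2 - r₁ * a1 + m1
    rcases mul_eq_zero.1 h3 with h4 | h4
    · right
      linear_combination 50 / 3 * (m3 + s₁ * h4 + s₂ * (a2 - a1 - h4) + (s₁ + s₂ + 1 / 125) * a1 -
        2 * m1)
    · left
      linear_combination 50 / 3 * (m3 + s₁ * h4 + s₂ * (a2 - a1 - h4) + 2 * m1)
  have h1 := key ⟨![0, 1, 2, 3], by decide⟩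
  have h0 : ∀ hinj : Function.Injective (![0, 1, 2, 3] : Fin 4 → Fin 5),
      (((Finset.univ : Finset (Fin 5)).powersetCard 2).filter fun T => Finset.univ.map
        (⟨_, hinj⟩ : Fin 4 ↪ Fin 5) ⊆ T).card = 0 := by decide
  rw [h0, det_four] at h1
  simp [d] at h1
  have h2 : (Q 0 1 * Q 1 2 * Q 2 3 * Q 3 0 + Q 0 3 * Q 3 2 * Q 2 1 * Q 1 0) +
      (Q 0 1 * Q 1 3 * Q 3 2 * Q 2 0 + Q 0 2 * Q 2 3 * Q 3 1 * Q 1 0) +
      (Q 0 2 * Q 2 1 * Q 1 3 * Q 3 0 + Q 0 3 * Q 3 1 * Q 1 2 * Q 2 0) = -21 / 2500 := by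
    have p01 := p 0 1 (by decide)
    have p02 := p 0 2 (by decide)
    have p03 := p 0 3 (by decide)
    have p12 := p 1 2 (by decide)
    have p13 := p 1 3 (by decide)
    have p23 := p 2 3 (by decide)
    linear_combination -h1 - 4 / 25 * (p01 + p02 + p03 + p12 + p13 + p23) +
      (Q 2 3 * Q 3 2) * p01 + 3 / 50 * p23 + (Q 1 3 * Q 3 1) * p02 + 3 / 50 * p13 +
      (Q 1 2 * Q 2 1) * p03 + 3 / 50 * p12 +
      2 / 5 * (t 0 1 2 (by decide) (by decide) (by decide) +
        t 0 1 3 (by decide) (by decide) (by decide) +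
        t 0 2 3 (by decide) (by decide) (by decide) + t 1 2 3 (by decide) (by decide) (by decide))
  rcases q 0 1 2 3 (by decide) (by decide) (by decide) (by decide) (by decide) with a | a <;>
  rcases q 0 1 3 2 (by decide) (by decide) (by decide) (by decide) (by decide) with b | b <;>
  rcases q 0 2 1 3 (by decide) (by decide) (by decide) (by decide) (by decide) with c | c <;>
  · rw [a, b, c] at h2
    norm_num at h2

end Vale.Agent.N143
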