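import Mathlib.Data.Finset.Finsupp
import Mathlib.Data.Int.Interval
import Mathlib.Analysis.Calculus.IteratedDeriv.Lemmas
import Mathlib.Analysis.Complex.Basic
import Mathlib.Analysis.Analytic.Constructions
import Mathlib.Analysis.Calculus.ContDiff.Defs
import Mathlib.Tactic

/-!
Polynomial functions of finitely supported integer vectors that are bounded on cubes depend,
up to a small error, on finitely many coordinates only.
-/

namespace Vale.Agent.N143

open Filter Topology

section Deg

variable {A : Type*} [AddCommGroup A]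

/-- `P` has degree at most `m`: its differences of order `m + 1` vanish -/
def Deg {R : Type*} [AddCommGroup R] : ℕ → (A → R) → Prop
  | 0, P => ∀ x, P x = P 0
  | m + 1, P => ∀ y, Deg m fun x => P (x + y) - P x

section

variable {R : Type*} [AddCommGroup R]

theorem Deg.const (m : ℕ) (c : R) : Deg m fun _ : A => c := by
  induction m generalizing c with
  | zero => intro x; rfl
  | succ m ih => intro y; exact ih _

theorem Deg.congr {m : ℕ} {P Q : A → R} (h : Deg m P) (e : ∀ x, Q x = P x) : Deg m Q := by
  rwa [show Q = P from funext e]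

theorem Deg.map {S : Type*} [AddCommGroup S] (φ : R →+ S) {m : ℕ} {P : A → R} (h : Deg m P) :
    Deg m fun x => φ (P x) := by
  induction m generalizing P with
  | zero => intro x; exact congrArg φ (h x)
  | succ m ih =>
    intro y
    simpa only [map_sub] using ih (h y)

theorem Deg.add {m : ℕ} {P Q : A → R} (hP : Deg m P) (hQ : Deg m Q) :
    Deg m fun x => P x + Q x := by
  induction m generalizing P Q with
  | zero => intro x; exact congrArg₂ (· + ·) (hP x) (hQ x)
  | succ m ih =>
    intro y
    refine (ih (hP y) (hQ y)).congr fun x => ?_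
    simp only
    abel

theorem Deg.sub {m : ℕ} {P Q : A → R} (hP : Deg m P) (hQ : Deg m Q) :
    Deg m fun x => P x - Q x := by
  have := hP.add (hQ.map (-AddMonoidHom.id R))
  simpa only [sub_eq_add_neg, AddMonoidHom.neg_apply, AddMonoidHom.id_apply] using this

theorem Deg.shift {m : ℕ} {P : A → R} (hP : Deg m P) (a : A) : Deg m fun x => P (x + a) := by
  induction m generalizing P with
  | zero => intro x; exact (hP _).trans (hP _).symm
  | succ m ih =>
    intro y
    refine (ih (hP y)).congr fun x => ?_
    simp only [add_right_comm x y a]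

theorem Deg.succ {m : ℕ} {P : A → R} (hP : Deg m P) : Deg (m + 1) P :=
  fun y => (hP.shift y).sub hP

theorem Deg.mono {m n : ℕ} {P : A → R} (hP : Deg m P) (h : m ≤ n) : Deg n P := by
  induction h with
  | refl => exact hP
  | step _ ih => exact ih.succ

theorem Deg.sum {ι : Type*} {m : ℕ} (s : Finset ι) {P : ι → A → R}
    (hP : ∀ i ∈ s, Deg m (P i)) : Deg m fun x => ∑ i ∈ s, P i x := by
  classical
  induction s using Finset.induction_on with
  | empty => simpa using Deg.const m (0 : R)
  | insert i s hi ih =>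
    simp only [Finset.sum_insert hi]
    exact (hP i (Finset.mem_insert_self _ _)).add
      (ih fun j hj => hP j (Finset.mem_insert_of_mem hj))

theorem Deg.hom (φ : A →+ R) : Deg 1 φ := by
  intro y x
  simp

end

theorem Deg.mul {R : Type*} [CommRing R] {a b : ℕ} {P Q : A → R} (hP : Deg a P) (hQ : Deg b Q) :
    Deg (a + b) fun x => P x * Q x := by
  induction a generalizing b P Q with
  | zero =>
    have h := hQ.map (AddMonoidHom.mulLeft (P 0))
    rw [zero_add]
    convert h using 2 with x
    rw [hP x]; rfl
  | succ a iha =>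
    induction b generalizing P Q with
    | zero =>
      have h := hP.map (AddMonoidHom.mulRight (Q 0))
      rw [add_zero]
      convert h using 2 with x
      rw [hQ x]; rfl
    | succ b ihb =>
      intro y
      have h1 := iha (hP y) (hQ.shift y)
      have h2 := ihb hP (hQ y)
      have e : a + (b + 1) = a + 1 + b := by ring
      rw [e] at h1
      refine (h1.add h2).congr fun x => ?_
      simp only
      ring

end Deg

section Local

variable {X : Type*}

/-- the degree can be tested on vectors supported in finite sets -/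
theorem Deg.of_local {R : Type*} [AddCommGroup R] {m : ℕ} {P : (X →₀ ℤ) → R}
    (h : ∀ G : Finset X, ∃ Q : (X →₀ ℤ) → R, Deg m Q ∧ ∀ x, x.support ⊆ G → P x = Q x) :
    Deg m P := by
  classical
  induction m generalizing P with
  | zero =>
    intro x
    obtain ⟨Q, hQ, hPQ⟩ := h x.support
    rw [hPQ x subset_rfl, hPQ 0 (by simp), hQ x]
  | succ m ih =>
    intro y
    refine ih fun G => ?_
    obtain ⟨Q, hQ, hPQ⟩ := h (G ∪ y.support)
    refine ⟨_, hQ y, fun x hx => ?_⟩
    rw [hPQ x (hx.trans Finset.subset_union_left),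
      hPQ (x + y) (Finsupp.support_add.trans (Finset.union_subset_union hx subset_rfl))]

/-- the cube of radius `R` -/
def Bdd (R : ℕ) (x : X →₀ ℤ) : Prop := ∀ f, |x f| ≤ R

theorem Bdd.mono {R R' : ℕ} {x : X →₀ ℤ} (h : Bdd R x) (hR : R ≤ R') : Bdd R' x :=
  fun f => (h f).trans (by exact_mod_cast hR)

theorem Bdd.add {R R' : ℕ} {x y : X →₀ ℤ} (hx : Bdd R x) (hy : Bdd R' y) :
    Bdd (R + R') (x + y) := fun f => by
  rw [Finsupp.add_apply]
  push_cast
  exact (abs_add_le _ _).trans (add_le_add (hx f) (hy f))

theorem exists_bdd (x : X →₀ ℤ) : ∃ R, Bdd R x := by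
  refine ⟨∑ f ∈ x.support, (x f).natAbs, fun f => ?_⟩
  by_cases hf : f ∈ x.support
  · rw [← Int.natCast_natAbs]
    exact_mod_cast Finset.single_le_sum (f := fun f => (x f).natAbs) (fun _ _ => Nat.zero_le _) hf
  · rw [Finsupp.notMem_support_iff.1 hf, abs_zero]
    exact Int.natCast_nonneg _

/-- `P` depends on finitely many coordinates up to small errors, uniformly on cubes -/
def IsLoc (P : (X →₀ ℤ) → ℝ) : Prop :=
  ∀ (R : ℕ) (ε : ℝ), 0 < ε → ∃ F : Finset X, ∀ x u, Bdd R x → Bdd R u → (∀ f ∈ F, u f = 0) →
    |P (x + u) - P x| ≤ ε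

/-- polynomials that are bounded on cubes are local -/
theorem isLoc_of_deg {m : ℕ} {P : (X →₀ ℤ) → ℝ} (hP : Deg m P)
    (hb : ∀ R : ℕ, ∃ C, ∀ x, Bdd R x → |P x| ≤ C) : IsLoc P := by
  classical
  induction m generalizing P with
  | zero =>
    intro R ε hε
    refine ⟨∅, fun x u _ _ _ => ?_⟩
    rw [hP x, hP (x + u), sub_self, abs_zero]
    exact hε.le
  | succ m ih =>
    have IH : ∀ b, IsLoc fun x => P (x + b) - P x := by
      intro b
      refine ih (hP b) fun R => ?_
      obtain ⟨R', hR'⟩ := exists_bdd b
      obtain ⟨C, hC⟩ := hb (R + R')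
      refine ⟨C + C, fun x hx => ?_⟩
      exact (abs_sub _ _).trans (add_le_add (hC _ (hx.add hR')) (hC _ (hx.mono (by omega))))
    intro R ε hε
    by_contra hcon
    push Not at hcon
    have step1 : ∀ G : Finset X, ∃ v, Bdd (R + R) v ∧ (∀ f ∈ G, v f = 0) ∧
        ε / 4 < |P v - P 0| := by
      intro G
      choose Fb hFb using fun b => IH b R (ε / 2) (by positivity)
      obtain ⟨x, u, hx, hu, huF, hlt⟩ := hcon
        (G ∪ (G.finsupp fun _ => Finset.Icc (-(R : ℤ)) R).biUnion Fb)
      set b := x.filter (· ∈ G) with hbdef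
      set x' := x.filter (fun f => ¬ f ∈ G) with hx'def
      have hxb : x' + b = x := by
        rw [add_comm]; exact Finsupp.filter_add_filter_not x _
      have hbm : b ∈ G.finsupp fun _ => Finset.Icc (-(R : ℤ)) R := by
        rw [Finset.mem_finsupp_iff]
        refine ⟨fun f hf => ?_, fun f hf => ?_⟩
        · rw [hbdef, Finsupp.support_filter] at hf
          exact (Finset.mem_filter.1 hf).2
        · rw [hbdef, Finsupp.filter_apply_pos _ _ hf, Finset.mem_Icc]
          exact abs_le.1 (hx f)
      have hx' : Bdd R x' := fun f => by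
        rw [hx'def, Finsupp.filter_apply]
        split_ifs
        · simp
        · exact hx f
      have hx'G : ∀ f ∈ G, x' f = 0 := fun f hf => by
        rw [hx'def, Finsupp.filter_apply, if_neg (not_not.2 hf)]
      have h1 := hFb b x' u hx' hu fun f hf =>
        huF f (Finset.mem_union_right _ (Finset.mem_biUnion.2 ⟨b, hbm, hf⟩))
      have e1 : x' + u + b = x + u := by rw [← hxb]; abel
      simp only [e1, hxb] at h1
      by_cases h2 : ε / 4 < |P x' - P 0|
      · exact ⟨x', hx'.mono (by omega), hx'G, h2⟩
      · refine ⟨x' + u, hx'.add hu, fun f hf => ?_, ?_⟩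
        · rw [Finsupp.add_apply, hx'G f hf, huF f (Finset.mem_union_left _ hf), add_zero]
        · by_contra h3
          rw [not_lt, abs_le] at h2 h3
          rw [abs_le] at h1
          rw [lt_abs] at hlt
          rcases hlt with h | h <;> linarith [h1.1, h1.2, h2.1, h2.2, h3.1, h3.2]
    have step2 : ∃ s : ℝ, |s| = 1 ∧ ∀ G : Finset X, ∃ v, Bdd (R + R) v ∧ (∀ f ∈ G, v f = 0) ∧
        ε / 4 < s * (P v - P 0) := by
      by_contra h
      push Not at h
      obtain ⟨G₁, h₁⟩ := h 1 abs_one
      obtain ⟨G₂, h₂⟩ := h (-1) (by simp)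
      obtain ⟨v, hv, hvG, hlt⟩ := step1 (G₁ ∪ G₂)
      have h3 := h₁ v hv fun f hf => hvG f (Finset.mem_union_left _ hf)
      have h4 := h₂ v hv fun f hf => hvG f (Finset.mem_union_right _ hf)
      rw [lt_abs] at hlt
      rcases hlt with h | h <;> linarith
    obtain ⟨s, hs, step2⟩ := step2
    have step3 : ∀ n : ℕ, ∃ b, Bdd (R + R) b ∧ n * (ε / 8) ≤ s * (P b - P 0) := by
      intro n
      induction n with
      | zero => exact ⟨0, fun f => by simp, by simp⟩
      | succ n ihn =>
        obtain ⟨b, hbR, hbn⟩ := ihn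
        obtain ⟨F, hF⟩ := IH b (R + R) (ε / 8) (by positivity)
        obtain ⟨v, hv, hvG, hlt⟩ := step2 (F ∪ b.support)
        have h1 := hF 0 v (fun f => by simp) hv
          fun f hf => hvG f (Finset.mem_union_left _ hf)
        simp only [zero_add] at h1
        refine ⟨v + b, fun f => ?_, ?_⟩
        · rw [Finsupp.add_apply]
          by_cases hf : f ∈ b.support
          · rw [hvG f (Finset.mem_union_right _ hf), zero_add]; exact hbR f
          · rw [Finsupp.notMem_support_iff.1 hf, add_zero]; exact hv f
        · have h2 : |s * (P (v + b) - P v - (P b - P 0))| ≤ ε / 8 := by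
            rw [abs_mul, hs, one_mul]; exact h1
          have h3 := (abs_le.1 h2).1
          push_cast
          nlinarith
    obtain ⟨C, hC⟩ := hb (R + R)
    obtain ⟨n, hn⟩ := exists_nat_gt ((C + C) / (ε / 8))
    obtain ⟨b, hbR, hbn⟩ := step3 n
    rw [div_lt_iff₀ (by positivity)] at hn
    have h1 : s * (P b - P 0) ≤ C + C := by
      refine (le_abs_self _).trans ?_
      rw [abs_mul, hs, one_mul]
      exact (abs_sub _ _).trans (add_le_add (hC b hbR) (hC 0 fun f => by simp))
    linarith

end Local

section Graded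

variable {A : Type*} [AddCommGroup A]

/-- families of germs whose `j`-th derivative at `0` has degree at most `j` in the parameter -/
structure Gr (g : A → ℂ → ℂ) : Prop where
  an : ∀ x, AnalyticAt ℂ (g x) 0
  deg : ∀ j, Deg j fun x => iteratedDeriv j (g x) 0

theorem Gr.const (c : ℂ) : Gr fun (_ : A) (_ : ℂ) => c :=
  ⟨fun _ => analyticAt_const, fun j => Deg.const j _⟩

theorem Gr.lin {l : A → ℂ} (hl : Deg 1 l) : Gr fun x t => t * l x := by
  refine ⟨fun x => analyticAt_id.mul analyticAt_const, fun j => ?_⟩
  simp only [iteratedDeriv_mul_const_field, iteratedDeriv_fun_id_zero]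
  by_cases hj : j = 1
  · subst hj
    simpa using hl
  · simpa [hj] using Deg.const j (0 : ℂ)

theorem Gr.add {g h : A → ℂ → ℂ} (hg : Gr g) (hh : Gr h) : Gr fun x t => g x t + h x t := by
  refine ⟨fun x => (hg.an x).add (hh.an x), fun j => ?_⟩
  simp only [fun x => iteratedDeriv_fun_add (n := j) (hg.an x).contDiffAt (hh.an x).contDiffAt]
  exact (hg.deg j).add (hh.deg j)

theorem Gr.term {g h : A → ℂ → ℂ} {j i : ℕ} (hi : i ≤ j)
    (hg : Deg i fun x => iteratedDeriv i (g x) 0) (hh : Gr h) :
    Deg j fun x => (j.choose i : ℂ) * iteratedDeriv i (g x) 0 * iteratedDeriv (j - i) (h x) 0 := by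
  have h1 := ((Deg.const 0 (j.choose i : ℂ)).mul hg).mul (hh.deg (j - i))
  exact h1.mono (by omega)

theorem Gr.mul {g h : A → ℂ → ℂ} (hg : Gr g) (hh : Gr h) : Gr fun x t => g x t * h x t := by
  refine ⟨fun x => (hg.an x).mul (hh.an x), fun j => ?_⟩
  simp only [fun x => iteratedDeriv_fun_mul (n := j) (hg.an x).contDiffAt (hh.an x).contDiffAt]
  refine Deg.sum _ fun i hi => Gr.term ?_ (hg.deg i) hh
  have := Finset.mem_range.1 hi
  omega

theorem Gr.sum {ι : Type*} (s : Finset ι) {g : ι → A → ℂ → ℂ} (hg : ∀ i ∈ s, Gr (g i)) :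
    Gr fun x t => ∑ i ∈ s, g i x t := by
  classical
  induction s using Finset.induction_on with
  | empty => simpa using Gr.const (A := A) 0
  | insert i s hi ih =>
    simp only [Finset.sum_insert hi]
    exact (hg i (Finset.mem_insert_self _ _)).add
      (ih fun j hj => hg j (Finset.mem_insert_of_mem hj))

theorem Gr.prod {ι : Type*} (s : Finset ι) {g : ι → A → ℂ → ℂ} (hg : ∀ i ∈ s, Gr (g i)) :
    Gr fun x t => ∏ i ∈ s, g i x t := by
  classical
  induction s using Finset.induction_on with
  | empty => simpa using Gr.const (A := A) 1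
  | insert i s hi ih =>
    simp only [Finset.prod_insert hi]
    exact (hg i (Finset.mem_insert_self _ _)).mul
      (ih fun j hj => hg j (Finset.mem_insert_of_mem hj))

theorem Gr.div {g h : A → ℂ → ℂ} (hg : Gr g) (hh : Gr h) (h1 : ∀ x, h x 0 = 1) :
    Gr fun x t => g x t / h x t := by
  have hne : ∀ x, h x 0 ≠ 0 := fun x => by rw [h1]; exact one_ne_zero
  have han : ∀ x, AnalyticAt ℂ (fun t => g x t / h x t) 0 :=
    fun x => (hg.an x).div (hh.an x) (hne x)
  refine ⟨han, fun j => ?_⟩
  induction j using Nat.strong_induction_on with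
  | _ j ih =>
    have key : ∀ x, iteratedDeriv j (fun t => g x t / h x t) 0 = iteratedDeriv j (g x) 0 -
        ∑ i ∈ Finset.range j, (j.choose i : ℂ) * iteratedDeriv i (fun t => g x t / h x t) 0 *
          iteratedDeriv (j - i) (h x) 0 := by
      intro x
      have e : g x =ᶠ[𝓝 0] fun t => g x t / h x t * h x t := by
        filter_upwards [(hh.an x).continuousAt.eventually_ne (hne x)] with t ht
        rw [div_mul_cancel₀ _ ht]
      rw [e.iteratedDeriv_eq j, iteratedDeriv_fun_mul (han x).contDiffAt (hh.an x).contDiffAt,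
        Finset.sum_range_succ]
      simp [h1]
    simp only [key]
    refine (hg.deg j).sub (Deg.sum _ fun i hi => ?_)
    have hi' := Finset.mem_range.1 hi
    exact Gr.term (g := fun x t => g x t / h x t) hi'.le (ih i hi') hh

end Graded

end Vale.Agent.N143
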