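import Vale.Agent.N143.Defs
import Vale.Agent.N143.Local
import Vale.Agent.P143.H71.Meas
import Mathlib.Analysis.Complex.Schwarz
import Mathlib.Analysis.Complex.Liouville
import Mathlib.Analysis.Complex.TaylorSeries

/-!
Tilted marginals of Hurwitz stable measures as bounded holomorphic functions on polydiscs.
-/

namespace Vale.Agent.N143

open Filter Topology MeasureTheory Metric Vale.Agent.P143 Vale.Agent.P143.H536
open Vale.Agent.P143.H71 (qq)

variable {X : Type*} [DecidableEq X]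

omit [DecidableEq X] in
theorem sum_qq_eq (μ : Measure (X → Bool)) [IsProbabilityMeasure μ] (F : Finset X)
    (Ψ : Finset X → ℂ) :
    ∑ T ∈ F.powerset, (qq μ F T : ℂ) * Ψ T = ∫ ω, Ψ (F.filter fun f => ω f = true) ∂μ := by
  have h1 : ∀ ω : X → Bool, Ψ (F.filter fun f => ω f = true) = ∑ T ∈ F.powerset,
      Set.indicator {ω : X → Bool | ∀ f ∈ F, (ω f = true ↔ f ∈ T)} (fun _ => Ψ T) ω := by
    intro ω
    rw [Finset.sum_eq_single (F.filter fun f => ω f = true)]
    · rw [Set.indicator_of_mem]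
      intro f hf
      simp [hf]
    · intro T hT hne
      rw [Set.indicator_of_notMem]
      intro h
      apply hne
      ext f
      rw [Finset.mem_filter]
      exact ⟨fun hf => ⟨Finset.mem_powerset.1 hT hf, (h f (Finset.mem_powerset.1 hT hf)).2 hf⟩,
        fun hf => (h f hf.1).1 hf.2⟩
    · intro h
      exact absurd (Finset.mem_powerset.2 (Finset.filter_subset _ _)) h
  simp only [h1]
  rw [integral_finsetSum _ fun T _ => (integrable_const _).indicator (measurableSet_cyl' F T)]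
  refine Finset.sum_congr rfl fun T _ => ?_
  rw [integral_indicator_const _ (measurableSet_cyl' F T), qq, Complex.real_smul]

/-- generating polynomial of a weight on the subsets of `F` -/
noncomputable def gs (q : Finset X → ℝ) (F : Finset X) (z : X → ℂ) : ℂ :=
  ∑ T ∈ F.powerset, (q T : ℂ) * ∏ f ∈ T, z f

omit [DecidableEq X] in
theorem genPoly_eq (μ : Measure (X → Bool)) [IsProbabilityMeasure μ] (F : Finset X)
    (z : X → ℂ) : genPoly μ F z = gs (qq μ F) F z := by
  unfold genPoly gs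
  rw [sum_qq_eq μ F fun T => ∏ f ∈ T, z f]
  simp only [Finset.prod_filter]

/-- spin product -/
noncomputable def pr (T F : Finset X) (ζ : X → ℂ) : ℂ :=
  ∏ f ∈ F, (1 + (if f ∈ T then 1 else -1) * ζ f)

/-- partition function in disc coordinates -/
noncomputable def Zs (q : Finset X → ℝ) (F : Finset X) (ζ : X → ℂ) : ℂ :=
  ∑ T ∈ F.powerset, (q T : ℂ) * pr T F ζ

/-- the part of the partition function where `e` is present -/
noncomputable def Ns (q : Finset X → ℝ) (F : Finset X) (e : X) (ζ : X → ℂ) : ℂ :=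
  ∑ T ∈ F.powerset, (q T : ℂ) * ((if e ∈ T then 1 else 0) * pr T F ζ)

/-- the tilted marginal in disc coordinates -/
noncomputable def rat (q : Finset X → ℝ) (F : Finset X) (e : X) (ζ : X → ℂ) : ℂ :=
  Ns q F e ζ / Zs q F ζ

theorem pr_eq {T F : Finset X} (hT : T ⊆ F) {ζ : X → ℂ} (h : ∀ f ∈ F, 1 - ζ f ≠ 0) :
    pr T F ζ = (∏ f ∈ F, (1 - ζ f)) * ∏ f ∈ T, ((1 + ζ f) / (1 - ζ f)) := by
  have h1 : ∏ f ∈ T, ((1 + ζ f) / (1 - ζ f)) =
      ∏ f ∈ F, (if f ∈ T then (1 + ζ f) / (1 - ζ f) else 1) := by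
    rw [← Finset.prod_filter, Finset.filter_mem_eq_inter, Finset.inter_eq_right.2 hT]
  rw [h1, ← Finset.prod_mul_distrib]
  refine Finset.prod_congr rfl fun f hf => ?_
  have := h f hf
  split_ifs
  · field_simp
  · ring

/-- no zeros in the unit polydisc -/
def DZ (q : Finset X → ℝ) (F : Finset X) : Prop :=
  ∀ ζ : X → ℂ, (∀ f ∈ F, ‖ζ f‖ < 1) → Zs q F ζ ≠ 0

omit [DecidableEq X] in
theorem one_sub_ne {c : ℂ} (h : ‖c‖ < 1) : 1 - c ≠ 0 := by
  intro h1
  rw [sub_eq_zero] at h1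
  rw [← h1, norm_one] at h
  exact lt_irrefl _ h

omit [DecidableEq X] in
theorem re_cayley {c : ℂ} (h : ‖c‖ < 1) : 0 < ((1 + c) / (1 - c)).re := by
  have h1 : 0 < Complex.normSq (1 - c) := Complex.normSq_pos.2 (one_sub_ne h)
  have h2 : Complex.normSq c < 1 := by
    rw [Complex.normSq_eq_norm_sq]
    nlinarith [norm_nonneg c]
  rw [Complex.div_re, ← add_div]
  refine div_pos ?_ h1
  rw [Complex.normSq_apply] at h2
  simp only [Complex.add_re, Complex.one_re, Complex.sub_re, Complex.add_im, Complex.one_im,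
    Complex.sub_im]
  nlinarith

theorem dz_of_hurwitz {q : Finset X → ℝ} {F : Finset X}
    (h : ∀ z : X → ℂ, (∀ f ∈ F, 0 < (z f).re) → gs q F z ≠ 0) {w : X → ℝ} (hw : ∀ f, 0 < w f) :
    DZ (fun T => q T * ∏ f ∈ T, w f) F := by
  intro ζ hζ
  have h1 : Zs (fun T => q T * ∏ f ∈ T, w f) F ζ = (∏ f ∈ F, (1 - ζ f)) *
      gs q F fun f => w f * ((1 + ζ f) / (1 - ζ f)) := by
    unfold Zs gs
    rw [Finset.mul_sum]
    refine Finset.sum_congr rfl fun T hT => ?_
    rw [pr_eq (Finset.mem_powerset.1 hT) fun f hf => one_sub_ne (hζ f hf),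
      Finset.prod_mul_distrib]
    push_cast
    ring
  rw [h1]
  refine mul_ne_zero (Finset.prod_ne_zero_iff.2 fun f hf => one_sub_ne (hζ f hf)) (h _ ?_)
  intro f hf
  rw [Complex.re_ofReal_mul]
  exact mul_pos (hw f) (re_cayley (hζ f hf))

omit [DecidableEq X] in
theorem norm_le_of_affine {A B : ℂ} (h : ∀ t : ℂ, ‖t‖ < 1 → A + t * B ≠ 0) : ‖B‖ ≤ ‖A‖ := by
  by_contra hlt
  rw [not_le] at hlt
  have hB : B ≠ 0 := norm_pos_iff.1 ((norm_nonneg _).trans_lt hlt)
  refine h (-A / B) ?_ (by field_simp; ring)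
  rw [norm_div, norm_neg, div_lt_one (norm_pos_iff.2 hB)]
  exact hlt

theorem norm_rat_le {q : Finset X → ℝ} {F : Finset X} (h : DZ q F) {e : X} (he : e ∈ F)
    {ζ : X → ℂ} {ρ : ℝ} (hρ : ρ < 1) (hζ : ∀ f ∈ F, ‖ζ f‖ ≤ ρ) :
    ‖rat q F e ζ‖ ≤ (1 + ρ) / (1 - ρ) := by
  set Q : ℂ := ∑ T ∈ F.powerset, (q T : ℂ) * ((if e ∈ T then 1 else 0) * pr T (F.erase e) ζ)
    with hQ
  set P : ℂ := ∑ T ∈ F.powerset, (q T : ℂ) * ((if e ∈ T then 0 else 1) * pr T (F.erase e) ζ)
    with hP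
  have hpr : ∀ (T : Finset X) (t : ℂ), pr T F (Function.update ζ e t) =
      (1 + (if e ∈ T then 1 else -1) * t) * pr T (F.erase e) ζ := by
    intro T t
    unfold pr
    rw [← Finset.mul_prod_erase F _ he, Function.update_self]
    congr 1
    refine Finset.prod_congr rfl fun f hf => ?_
    rw [Function.update_of_ne (Finset.ne_of_mem_erase hf)]
  have hZ : ∀ t : ℂ, Zs q F (Function.update ζ e t) = (Q + P) + t * (Q - P) := by
    intro t
    unfold Zs
    rw [hQ, hP, ← Finset.sum_add_distrib, ← Finset.sum_sub_distrib, Finset.mul_sum,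
      ← Finset.sum_add_distrib]
    refine Finset.sum_congr rfl fun T _ => ?_
    rw [hpr]
    split_ifs <;> ring
  have hN : Ns q F e ζ = (1 + ζ e) * Q := by
    unfold Ns
    rw [hQ, Finset.mul_sum]
    refine Finset.sum_congr rfl fun T _ => ?_
    have := hpr T (ζ e)
    rw [Function.update_eq_self] at this
    rw [this]
    split_ifs <;> ring
  have hne : ∀ t : ℂ, ‖t‖ < 1 → (Q + P) + t * (Q - P) ≠ 0 := by
    intro t ht
    rw [← hZ]
    refine h _ fun f hf => ?_
    by_cases hfe : f = e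
    · rw [hfe, Function.update_self]; exact ht
    · rw [Function.update_of_ne hfe]; exact (hζ f hf).trans_lt hρ
  have h1 := norm_le_of_affine hne
  have hA : 0 < ‖Q + P‖ := norm_pos_iff.2 (by simpa using hne 0 (by simp))
  have h2 : ‖Q‖ ≤ ‖Q + P‖ := by
    have h3 : (2 : ℂ) * Q = (Q + P) + (Q - P) := by ring
    have h4 := norm_add_le (Q + P) (Q - P)
    rw [← h3, norm_mul, Complex.norm_ofNat] at h4
    linarith
  have hZ' := hZ (ζ e)
  rw [Function.update_eq_self] at hZ'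
  have he' := hζ e he
  have hρ0 : 0 ≤ ρ := (norm_nonneg _).trans he'
  have h5 : (1 - ρ) * ‖Q + P‖ ≤ ‖Zs q F ζ‖ := by
    rw [hZ']
    have h6 := norm_sub_le ((Q + P) + ζ e * (Q - P)) (ζ e * (Q - P))
    rw [add_sub_cancel_right, norm_mul] at h6
    have h7 : ‖ζ e‖ * ‖Q - P‖ ≤ ρ * ‖Q + P‖ := mul_le_mul he' h1 (norm_nonneg _) hρ0
    linarith
  have h6 : ‖Ns q F e ζ‖ ≤ (1 + ρ) * ‖Q + P‖ := by
    rw [hN, norm_mul]
    refine mul_le_mul ?_ h2 (norm_nonneg _) (by linarith)
    exact (norm_add_le _ _).trans (by rw [norm_one]; linarith)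
  have h7 : 0 < (1 - ρ) * ‖Q + P‖ := mul_pos (by linarith) hA
  unfold rat
  rw [norm_div]
  calc ‖Ns q F e ζ‖ / ‖Zs q F ζ‖ ≤ ((1 + ρ) * ‖Q + P‖) / ((1 - ρ) * ‖Q + P‖) :=
        div_le_div₀ (by positivity) h6 h7 h5
    _ = (1 + ρ) / (1 - ρ) := mul_div_mul_right _ _ hA.ne'

theorem differentiableAt_rat {q : Finset X → ℝ} {F : Finset X} (h : DZ q F) (e : X)
    (ζ v : X → ℂ) {t : ℂ} (ht : ∀ f ∈ F, ‖ζ f + t * v f‖ < 1) :
    DifferentiableAt ℂ (fun s => rat q F e fun f => ζ f + s * v f) t := by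
  have h1 : ∀ T : Finset X, Differentiable ℂ fun s : ℂ => pr T F fun f => ζ f + s * v f := by
    intro T
    unfold pr
    exact Differentiable.fun_finsetProd fun f _ => by fun_prop
  unfold rat
  refine DifferentiableAt.div ?_ ?_ (h _ ht)
  · unfold Ns
    exact DifferentiableAt.fun_sum fun T _ => ((h1 T t).const_mul _).const_mul _
  · unfold Zs
    exact DifferentiableAt.fun_sum fun T _ => (h1 T t).const_mul _

/-- Lipschitz bound from the Schwarz lemma -/
theorem rat_lip {q : Finset X → ℝ} {F : Finset X} (h : DZ q F) {e : X} (he : e ∈ F)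
    {ζ v : X → ℂ} {r ρ η D : ℝ} (hρ : ρ < 1) (hη : 0 < η) (hηr : η < ρ - r)
    (hζ : ∀ f ∈ F, ‖ζ f‖ ≤ r) (hv : ∀ f ∈ F, ‖v f‖ ≤ η) (hD : ‖rat q F e ζ‖ ≤ D) :
    ‖rat q F e (fun f => ζ f + v f) - rat q F e ζ‖ ≤
      ((1 + ρ) / (1 - ρ) + D) * η / (ρ - r) := by
  have hb : ∀ t ∈ ball (0 : ℂ) ((ρ - r) / η), ∀ f ∈ F, ‖ζ f + t * v f‖ ≤ ρ := by
    intro t ht f hf
    rw [mem_ball_zero_iff, lt_div_iff₀ hη] at ht
    have h1 : ‖t * v f‖ ≤ ‖t‖ * η := by
      rw [norm_mul]; exact mul_le_mul_of_nonneg_left (hv f hf) (norm_nonneg _)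
    linarith [norm_add_le (ζ f) (t * v f), hζ f hf]
  have h0 : (fun f => ζ f + 0 * v f) = ζ := by funext f; simp
  have key := Complex.dist_le_div_mul_dist_of_mapsTo_ball
    (f := fun s : ℂ => rat q F e fun f => ζ f + s * v f) (c := 0) (z := 1) (R₁ := (ρ - r) / η)
    (R₂ := (1 + ρ) / (1 - ρ) + D)
    (fun t ht => (differentiableAt_rat h e ζ v
      fun f hf => (hb t ht f hf).trans_lt hρ).differentiableWithinAt)
    (fun t ht => by
      rw [mem_closedBall, dist_eq_norm, h0]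
      exact (norm_sub_le _ _).trans (add_le_add (norm_rat_le h he hρ (hb t ht)) hD))
    (by rw [mem_ball_zero_iff, norm_one, lt_div_iff₀ hη]; linarith)
  simp only [one_mul, h0, dist_eq_norm, sub_zero, norm_one, mul_one] at key
  refine key.trans_eq ?_
  have : ρ - r ≠ 0 := by linarith
  field_simp

/-- the value at real points -/
theorem rat_real (q : Finset X → ℝ) (F : Finset X) (e : X) {w w' : X → ℝ} (hw : ∀ f, 0 < w f)
    (hw' : ∀ f, 0 < w' f) :
    rat (fun T => q T * ∏ f ∈ T, w f) F e (fun f => (((w' f - w f) / (w' f + w f) : ℝ) : ℂ)) =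
      (upr F.powerset q w' e : ℝ) := by
  set ζ : X → ℂ := fun f => (((w' f - w f) / (w' f + w f) : ℝ) : ℂ) with hζ
  have h1 : ∀ f, 1 - ζ f = ((2 * w f / (w' f + w f) : ℝ) : ℂ) := by
    intro f
    have := (add_pos (hw' f) (hw f)).ne'
    simp only [hζ]
    norm_cast
    field_simp
    ring
  have h2 : ∀ f, 1 - ζ f ≠ 0 := by
    intro f
    rw [h1]
    have := hw f
    have := hw' f
    exact_mod_cast (by positivity : (2 * w f / (w' f + w f) : ℝ) ≠ 0)
  have h3 : ∀ f, (w f : ℂ) * ((1 + ζ f) / (1 - ζ f)) = w' f := by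
    intro f
    have := (add_pos (hw' f) (hw f)).ne'
    have := (hw f).ne'
    rw [h1]
    simp only [hζ]
    norm_cast
    field_simp
    ring
  have h4 : ∀ T ∈ F.powerset, ((q T * ∏ f ∈ T, w f : ℝ) : ℂ) * pr T F ζ =
      (∏ f ∈ F, (1 - ζ f)) * ((q T * ∏ f ∈ T, w' f : ℝ) : ℂ) := by
    intro T hT
    rw [pr_eq (Finset.mem_powerset.1 hT) fun f _ => h2 f]
    push_cast
    rw [← Finset.prod_congr rfl fun f (_ : f ∈ T) => h3 f, Finset.prod_mul_distrib]
    ring
  unfold rat Ns Zs upr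
  rw [Finset.sum_congr rfl h4, ← Finset.mul_sum, Finset.sum_filter]
  have h5 : ∀ T ∈ F.powerset, ((q T * ∏ f ∈ T, w f : ℝ) : ℂ) *
      ((if e ∈ T then 1 else 0) * pr T F ζ) = (∏ f ∈ F, (1 - ζ f)) *
      ((if e ∈ T then q T * ∏ f ∈ T, w' f else 0 : ℝ) : ℂ) := by
    intro T hT
    split_ifs
    · rw [one_mul, h4 T hT]
    · simp
  rw [Finset.sum_congr rfl h5, ← Finset.mul_sum,
    mul_div_mul_left _ _ (Finset.prod_ne_zero_iff.2 fun f _ => h2 f)]
  push_cast
  rfl

omit [DecidableEq X] in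
theorem abs_cayley_le {a b : ℝ} (ha : 0 < a) (hb : 0 < b) :
    |(b - a) / (b + a)| ≤ |Real.log a - Real.log b| / 2 := by
  wlog hab : a ≤ b generalizing a b
  · have := this hb ha (le_of_not_ge hab)
    rwa [abs_sub_comm (Real.log b), add_comm a, ← neg_sub b a, neg_div, abs_neg] at this
  have h1 := Real.le_log_one_add_of_nonneg (x := b / a - 1)
    (by rw [sub_nonneg, one_le_div ha]; exact hab)
  rw [add_sub_cancel, Real.log_div hb.ne' ha.ne'] at h1
  have h2 : 2 * (b / a - 1) / (b / a - 1 + 2) = 2 * ((b - a) / (b + a)) := by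
    have h3 : b / a - 1 + 2 = (b + a) / a := by
      field_simp
      ring
    have h4 : b + a ≠ 0 := by positivity
    rw [h3]
    field_simp
  rw [h2] at h1
  rw [abs_of_nonneg (div_nonneg (by linarith) (by linarith)), abs_sub_comm]
  linarith [le_abs_self (Real.log b - Real.log a)]

/-- the tilted marginals of a Hurwitz stable weight form a drift -/
theorem isDrift_upr {q : Finset X → ℝ} {F : Finset X} (hq : Prior F.powerset q)
    (h : ∀ z : X → ℂ, (∀ f ∈ F, 0 < (z f).re) → gs q F z ≠ 0) : IsDrift (upr F.powerset q) := by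
  refine ⟨fun w hw e => upr_nonneg hq hw e, fun w hw e => upr_le_one hq hw e, ?_⟩
  intro w w' hw hw' δ hδ e
  have hδ0 : 0 ≤ δ := (abs_nonneg _).trans (hδ e)
  have b1 := upr_nonneg hq hw e
  have b2 := upr_le_one hq hw e
  by_cases he : e ∈ F
  swap
  · have h0 : ∀ u : X → ℝ, upr F.powerset q u e = 0 := fun u => by
      unfold upr
      rw [Finset.filter_false_of_mem, Finset.sum_empty, zero_div]
      exact fun T hT heT => he (Finset.mem_powerset.1 hT heT)
    rw [h0, h0, sub_self, abs_zero]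
    linarith
  by_cases hbig : 1 ≤ δ
  · have b3 := upr_nonneg hq hw' e
    have b4 := upr_le_one hq hw' e
    rw [abs_le]
    constructor <;> linarith
  refine le_of_forall_pos_le_add fun ε hε => ?_
  obtain ⟨η, hη0, hη1, hη2, hη3⟩ : ∃ η : ℝ, 0 < η ∧ η < 1 / 2 ∧ δ / 2 ≤ η ∧ 8 * η ≤ 4 * δ + ε := by
    refine ⟨δ / 2 + min (ε / 8) ((1 - δ) / 4), ?_, ?_, ?_, ?_⟩
    · have : 0 < min (ε / 8) ((1 - δ) / 4) := lt_min (by linarith) (by linarith)
      linarith
    · linarith [min_le_right (ε / 8) ((1 - δ) / 4)]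
    · have : 0 < min (ε / 8) ((1 - δ) / 4) := lt_min (by linarith) (by linarith)
      linarith
    · linarith [min_le_left (ε / 8) ((1 - δ) / 4)]
  have e0 := rat_real q F e hw hw
  have e1 := rat_real q F e hw hw'
  simp only [sub_self, zero_div, Complex.ofReal_zero] at e0
  have key := rat_lip (dz_of_hurwitz h hw) he (ζ := fun _ => 0)
    (v := fun f => (((w' f - w f) / (w' f + w f) : ℝ) : ℂ)) (r := 0) (ρ := 1 / 2) (η := η) (D := 1)
    (by norm_num) hη0 (by linarith) (fun _ _ => by simp)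
    (fun f _ => by
      rw [Complex.norm_real, Real.norm_eq_abs]
      linarith [abs_cayley_le (hw f) (hw' f), hδ f])
    (by rw [e0, Complex.norm_real, Real.norm_eq_abs, abs_of_nonneg b1]; exact b2)
  simp only [zero_add] at key
  rw [e0, e1, ← Complex.ofReal_sub, Complex.norm_real, Real.norm_eq_abs, abs_sub_comm] at key
  refine key.trans ?_
  norm_num
  linarith

end Vale.Agent.N143
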