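import Vale.Agent.N143.Disc
import Mathlib.Analysis.Complex.Polynomial.Basic
import Mathlib.Topology.Order.IntermediateValue

/-!
A polynomial with nonnegative coefficients that has no zeros in the upper half-plane has no zeros
in the right half-plane (Gårding's homotopy argument).
-/

namespace Vale.Agent.N143

open Filter Topology MeasureTheory Metric Polynomial Set
open Vale.Agent.P143.H71 (qq)

/-- `φ` is a polynomial of degree at most `d` whose coefficient of order `d` is `c` -/
def IsPol (d : ℕ) (c : ℂ) (φ : ℂ → ℂ) : Prop :=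
  ∃ p : ℂ[X], p.natDegree ≤ d ∧ p.coeff d = c ∧ ∀ s, p.eval s = φ s

theorem IsPol.const (c : ℂ) : IsPol 0 c fun _ => c := ⟨C c, by simp, by simp, by simp⟩

theorem IsPol.zero (d : ℕ) : IsPol d 0 fun _ => 0 := ⟨0, by simp, by simp, by simp⟩

theorem IsPol.lin (a b : ℂ) : IsPol 1 a fun s => a * s + b :=
  ⟨C a * X + C b, natDegree_linear_le, by simp, by simp⟩

theorem IsPol.add {d : ℕ} {c c' : ℂ} {φ ψ : ℂ → ℂ} (h : IsPol d c φ) (h' : IsPol d c' ψ) :
    IsPol d (c + c') fun s => φ s + ψ s := by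
  obtain ⟨p, h1, h2, h3⟩ := h
  obtain ⟨p', h1', h2', h3'⟩ := h'
  exact ⟨p + p', (natDegree_add_le _ _).trans (max_le h1 h1'), by simp [h2, h2'],
    by simp [h3, h3']⟩

theorem IsPol.mul {d d' : ℕ} {c c' : ℂ} {φ ψ : ℂ → ℂ} (h : IsPol d c φ) (h' : IsPol d' c' ψ) :
    IsPol (d + d') (c * c') fun s => φ s * ψ s := by
  obtain ⟨p, h1, h2, h3⟩ := h
  obtain ⟨p', h1', h2', h3'⟩ := h'
  exact ⟨p * p', natDegree_mul_le.trans (add_le_add h1 h1'),
    by rw [coeff_mul_add_eq_of_natDegree_le h1 h1', h2, h2'], by simp [h3, h3']⟩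

theorem IsPol.prod {ι : Type*} (T : Finset ι) (a b : ι → ℂ) :
    IsPol T.card (∏ i ∈ T, a i) fun s => ∏ i ∈ T, (a i * s + b i) := by
  classical
  induction T using Finset.induction_on with
  | empty => simpa using IsPol.const 1
  | insert i T hi ih =>
    simp only [Finset.prod_insert hi, Finset.card_insert_of_notMem hi, add_comm T.card]
    exact (IsPol.lin _ _).mul ih

theorem IsPol.sum {ι : Type*} (T : Finset ι) {d : ℕ} {c : ι → ℂ} {φ : ι → ℂ → ℂ}
    (h : ∀ i ∈ T, IsPol d (c i) (φ i)) : IsPol d (∑ i ∈ T, c i) fun s => ∑ i ∈ T, φ i s := by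
  classical
  induction T using Finset.induction_on with
  | empty => simpa using IsPol.zero d
  | insert i T hi ih =>
    simp only [Finset.sum_insert hi]
    exact (h i (Finset.mem_insert_self _ _)).add
      (ih fun j hj => h j (Finset.mem_insert_of_mem hj))

/-- lower bound for polynomials without zeros in the upper half-plane -/
theorem IsPol.lower {d : ℕ} {c : ℂ} {φ : ℂ → ℂ} (h : IsPol d c φ)
    (h0 : ∀ s : ℂ, 0 < s.im → φ s ≠ 0) {s : ℂ} (hs : 0 < s.im) : ‖c‖ * s.im ^ d ≤ ‖φ s‖ := by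
  obtain ⟨p, h1, h2, h3⟩ := h
  by_cases hc : c = 0
  · simp [hc]
  have hd : p.natDegree = d := natDegree_eq_of_le_of_coeff_ne_zero h1 (h2 ▸ hc)
  have key : ∀ m : Multiset ℂ, (∀ a ∈ m, a.im ≤ 0) →
      s.im ^ m.card ≤ ‖(m.map (s - ·)).prod‖ := by
    intro m
    induction m using Multiset.induction_on with
    | empty => simp
    | cons a m ih =>
      intro hm
      rw [Multiset.map_cons, Multiset.prod_cons, Multiset.card_cons, norm_mul, pow_succ']
      refine mul_le_mul ?_ (ih fun b hb => hm b (Multiset.mem_cons_of_mem hb)) (by positivity)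
        (norm_nonneg _)
      have h4 := hm a (Multiset.mem_cons_self _ _)
      have h5 := (le_abs_self _).trans (Complex.abs_im_le_norm (s - a))
      rw [Complex.sub_im] at h5
      linarith
  rw [← h3, (IsAlgClosed.splits p).eval_eq_prod_roots, norm_mul, leadingCoeff, hd, h2, ← hd,
    ← IsAlgClosed.card_roots_eq_natDegree]
  refine mul_le_mul_of_nonneg_left (key _ fun a ha => ?_) (norm_nonneg _)
  by_contra hlt
  exact h0 a (not_le.1 hlt) (by rw [← h3]; exact isRoot_of_mem_roots ha)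

/-- zeros cannot enter the upper half-plane without crossing the real axis -/
theorem homotopy {d : ℕ} {c : ℂ} (hc : c ≠ 0) {φ : ℝ → ℂ → ℂ} (hp : ∀ r, IsPol d c (φ r))
    (hcont : Continuous fun p : ℝ × ℂ => φ p.1 p.2) (hre : ∀ r s, s.im = 0 → φ r s ≠ 0)
    {M : ℝ} (hM : ∀ r ∈ Icc (0 : ℝ) 1, ∀ s, φ r s = 0 → ‖s‖ ≤ M)
    (h0 : ∀ s : ℂ, 0 < s.im → φ 0 s ≠ 0) (s : ℂ) (hs : 0 < s.im) : φ 1 s ≠ 0 := by
  set A : Set ℝ := {r | ∀ s : ℂ, 0 < s.im → φ r s ≠ 0} with hA
  have hAc : IsClosed A := by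
    have h1 : A = ⋂ s : ℂ, ⋂ _ : 0 < s.im, {r | ‖c‖ * s.im ^ d ≤ ‖φ r s‖} := by
      ext r
      simp only [hA, mem_ofPred_eq, mem_iInter]
      refine ⟨fun h s hs => (hp r).lower h hs, fun h s hs => norm_pos_iff.1 ?_⟩
      exact (mul_pos (norm_pos_iff.2 hc) (pow_pos hs d)).trans_le (h s hs)
    rw [h1]
    refine isClosed_iInter fun s => isClosed_iInter fun _ => isClosed_le continuous_const ?_
    exact (hcont.comp (continuous_id.prodMk continuous_const)).norm
  have hK : IsCompact ((Icc (0 : ℝ) 1 ×ˢ closedBall (0 : ℂ) M) ∩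
      ({p | 0 ≤ p.2.im} ∩ {p | φ p.1 p.2 = 0})) := by
    refine (isCompact_Icc.prod (isCompact_closedBall _ _)).inter_right (IsClosed.inter ?_ ?_)
    · exact isClosed_le continuous_const (Complex.continuous_im.comp continuous_snd)
    · exact isClosed_eq hcont continuous_const
  have hB := (hK.image continuous_fst).isClosed
  refine (hAc.inter isClosed_Icc).Icc_subset_of_forall_mem_nhdsWithin (a := 0) (b := 1) h0
    (fun x hx => ?_) (right_mem_Icc.2 zero_le_one) s hs
  have h1 := hB.isOpen_compl.mem_nhds (x := x) (by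
    rintro ⟨⟨r, t⟩, ⟨-, h2, h3⟩, rfl⟩
    rcases (show 0 ≤ t.im from h2).eq_or_lt with h | h
    · exact hre r t h.symm h3
    · exact hx.1 t h h3)
  filter_upwards [mem_nhdsWithin_of_mem_nhds h1, Ioo_mem_nhdsGT hx.2.2] with r hr1 hr2 t ht h
  have hr : r ∈ Icc (0 : ℝ) 1 := ⟨hx.2.1.trans hr2.1.le, hr2.2.le⟩
  exact hr1 ⟨(r, t), ⟨⟨hr, mem_closedBall_zero_iff.2 (hM r hr t h)⟩, ht.le, h⟩, rfl⟩

variable {X : Type*}

/-- homogenization of the generating polynomial -/
noncomputable def Gh (q : Finset X → ℝ) (F : Finset X) (d : ℕ) (s : ℂ) (z : X → ℂ) : ℂ :=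
  ∑ T ∈ F.powerset, (q T : ℂ) * (s ^ (d - T.card) * ∏ f ∈ T, z f)

section

variable {q : Finset X → ℝ} {F : Finset X} {d : ℕ}
  (hd : ∀ T ∈ F.powerset, q T ≠ 0 → T.card ≤ d)

include hd in
theorem isPol_Gh (a b : ℂ) (x y : X → ℂ) :
    IsPol d (Gh q F d a x) fun s => Gh q F d (a * s + b) fun f => x f * s + y f := by
  refine IsPol.sum _ fun T hT => ?_
  by_cases hq : q T = 0
  · simpa [hq] using IsPol.zero d
  have h1 := IsPol.prod (Finset.range (d - T.card)) (fun _ => a) fun _ => b
  simp only [Finset.prod_const, Finset.card_range] at h1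
  have h2 := (IsPol.const (q T)).mul (h1.mul (IsPol.prod T x y))
  rwa [zero_add, Nat.sub_add_cancel (hd T hT hq)] at h2

include hd in
theorem Gh_eq {s : ℂ} (hs : s ≠ 0) (z : X → ℂ) :
    Gh q F d s z = s ^ d * gs q F fun f => z f / s := by
  unfold Gh gs
  rw [Finset.mul_sum]
  refine Finset.sum_congr rfl fun T hT => ?_
  by_cases hq : q T = 0
  · simp [hq]
  rw [Finset.prod_div_distrib, Finset.prod_const, pow_sub₀ _ hs (hd T hT hq)]
  ring

theorem continuous_Gh {Y : Type*} [TopologicalSpace Y] {s : Y → ℂ} {z : Y → X → ℂ}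
    (hs : Continuous s) (hz : ∀ f, Continuous fun y => z y f) :
    Continuous fun y => Gh q F d (s y) (z y) :=
  continuous_finsetSum _ fun _ _ => continuous_const.mul
    ((hs.pow _).mul (continuous_finsetProd _ fun f _ => hz f))

end

theorem gs_ne_of_stable {q : Finset X → ℝ} {F : Finset X} (hq : ∀ T ∈ F.powerset, 0 ≤ q T)
    (h : ∀ z : X → ℂ, (∀ f ∈ F, 0 < (z f).im) → gs q F z ≠ 0) (z : X → ℂ)
    (hz : ∀ f ∈ F, 0 < (z f).re) : gs q F z ≠ 0 := by
  classical
  have hneg : ∀ z : X → ℂ, (∀ f ∈ F, (z f).im < 0) → gs q F z ≠ 0 := by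
    intro z hz h0
    refine h (fun f => (starRingEnd ℂ) (z f)) (fun f hf => by simpa using hz f hf) ?_
    have := congrArg (starRingEnd ℂ) h0
    simpa [gs] using this
  obtain ⟨T₀, hT₀, hmax⟩ := (F.powerset.filter fun T => q T ≠ 0).exists_max_image Finset.card (by
    by_contra hne
    rw [Finset.not_nonempty_iff_eq_empty, Finset.filter_eq_empty_iff] at hne
    refine h (fun _ => Complex.I) (fun _ _ => by simp) (Finset.sum_eq_zero fun T hT => ?_)
    rw [not_not.1 (hne hT), Complex.ofReal_zero, zero_mul])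
  rw [Finset.mem_filter] at hT₀
  set d := T₀.card with hdd
  have hd : ∀ T ∈ F.powerset, q T ≠ 0 → T.card ≤ d :=
    fun T hT hT' => hmax T (Finset.mem_filter.2 ⟨hT, hT'⟩)
  have hpos : ∀ (a : ℝ) (x : X → ℝ), 0 ≤ a → (∀ f ∈ F, 0 < x f) →
      Gh q F d a (fun f => x f) ≠ 0 := by
    intro a x ha hx
    have h1 : 0 < ∑ T ∈ F.powerset, q T * (a ^ (d - T.card) * ∏ f ∈ T, x f) := by
      have h2 : ∀ T ∈ F.powerset, 0 < ∏ f ∈ T, x f := fun T hT =>
        Finset.prod_pos fun f hf => hx f (Finset.mem_powerset.1 hT hf)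
      refine Finset.sum_pos' (fun T hT => mul_nonneg (hq T hT)
        (mul_nonneg (pow_nonneg ha _) (h2 T hT).le)) ⟨T₀, hT₀.1, ?_⟩
      rw [Nat.sub_self, pow_zero, one_mul]
      exact mul_pos ((hq T₀ hT₀.1).lt_of_ne' hT₀.2) (h2 T₀ hT₀.1)
    have h3 : Gh q F d a (fun f => x f) =
        ((∑ T ∈ F.powerset, q T * (a ^ (d - T.card) * ∏ f ∈ T, x f) : ℝ) : ℂ) := by
      unfold Gh
      push_cast
      rfl
    rw [h3]
    exact Complex.ofReal_ne_zero.2 h1.ne'
  clear_value d
  obtain ⟨x, hx⟩ : ∃ x : X → ℝ, ∀ f, x f = (z f).re / 2 := ⟨_, fun _ => rfl⟩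
  obtain ⟨y, hy⟩ : ∃ y : X → ℝ, ∀ f, y f = -(z f).im := ⟨_, fun _ => rfl⟩
  have hx0 : ∀ f ∈ F, 0 < x f := fun f hf => by rw [hx]; exact half_pos (hz f hf)
  -- real values of the homogenizing variable
  have hreal : ∀ σ : ℝ, σ ≠ 0 → ∀ u : X → ℂ, (∀ f ∈ F, 0 < (u f).im) → Gh q F d σ u ≠ 0 := by
    intro σ hσ u hu
    have hσ' : (σ : ℂ) ≠ 0 := by exact_mod_cast hσ
    rw [Gh_eq hd hσ']
    refine mul_ne_zero (pow_ne_zero _ hσ') ?_
    rcases hσ.lt_or_gt with h1 | h1
    · refine hneg _ fun f hf => ?_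
      rw [Complex.div_ofReal_im]
      exact div_neg_of_pos_of_neg (hu f hf) h1
    · refine h _ fun f hf => ?_
      rw [Complex.div_ofReal_im]
      exact div_pos (hu f hf) h1
  have htop : ∀ v : X → ℝ, Gh q F d 0 (fun f => x f * Complex.I + v f) ≠ 0 := by
    intro v
    have h1 : ∀ᶠ σ : ℝ in 𝓝[>] 0, ‖Gh q F d 0 fun f => x f‖ * Complex.I.im ^ d ≤
        ‖Gh q F d (0 * Complex.I + σ) fun f => x f * Complex.I + v f‖ := by
      filter_upwards [self_mem_nhdsWithin] with σ hσ
      refine (isPol_Gh hd 0 σ (fun f => x f) fun f => v f).lower (fun s hs => ?_) (by simp)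
      rw [zero_mul, zero_add]
      refine hreal σ (ne_of_gt hσ) _ fun f hf => ?_
      simpa using mul_pos (hx0 f hf) hs
    have h2 : Continuous fun σ : ℝ =>
        ‖Gh q F d (0 * Complex.I + σ) fun f => x f * Complex.I + v f‖ :=
      (continuous_Gh (s := fun σ : ℝ => 0 * Complex.I + σ)
        (z := fun _ f => x f * Complex.I + v f) (by fun_prop) fun _ => continuous_const).norm
    have h3 := ge_of_tendsto ((h2.tendsto 0).mono_left nhdsWithin_le_nhds) h1
    simp only [Complex.I_im, one_pow, mul_one, zero_mul, Complex.ofReal_zero, add_zero] at h3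
    exact norm_pos_iff.1 ((norm_pos_iff.2 (by simpa using hpos 0 x le_rfl hx0)).trans_le h3)
  have hgx : gs q F (fun f => x f) ≠ 0 := by
    have := hpos 1 x zero_le_one hx0
    rw [Complex.ofReal_one, Gh_eq hd one_ne_zero] at this
    simpa using this
  obtain ⟨η, hη, hball⟩ : ∃ η > 0, ∀ v : X → ℂ, (∀ f ∈ F, ‖v f‖ < η) →
      gs q F (fun f => x f + v f) ≠ 0 := by
    have hc : Continuous fun v : F → ℂ =>
        gs q F fun f => x f + if h : f ∈ F then v ⟨f, h⟩ else 0 := by
      refine continuous_finsetSum _ fun T _ => continuous_const.mul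
        (continuous_finsetProd _ fun f _ => continuous_const.add ?_)
      split_ifs
      · exact continuous_apply _
      · exact continuous_const
    obtain ⟨η, hη, hb⟩ := Metric.eventually_nhds_iff.1
      ((hc.continuousAt (x := 0)).eventually_ne (y := 0) (by simpa using hgx))
    refine ⟨η, hη, fun v hv h0 => hb (y := fun f : F => v f) ?_ ?_⟩
    · rw [dist_zero_right, pi_norm_lt_iff hη]
      exact fun f => hv f f.2
    · refine Eq.trans (Finset.sum_congr rfl fun T hT => ?_) h0
      congr 1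
      exact Finset.prod_congr rfl fun f hf => by
        simp only [dif_pos (Finset.mem_powerset.1 hT hf)]
  have key := homotopy (d := d) (hpos 1 x zero_le_one hx0)
    (φ := fun r s => Gh q F d ((1 : ℝ) * s + 0) fun f => x f * s + (x f * Complex.I + r * y f))
    (fun r => isPol_Gh hd _ _ _ _) (continuous_Gh (s := fun p : ℝ × ℂ => (1 : ℝ) * p.2 + 0)
      (z := fun p f => x f * p.2 + (x f * Complex.I + p.1 * y f)) (by fun_prop)
      fun f => by fun_prop)
    (M := (∑ f ∈ F, (|x f| + |y f|)) / η) (fun r s hs => ?_) (fun r hr s h0 => ?_)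
    (fun s hs => ?_) Complex.I (by simp)
  · simp only [Complex.ofReal_one, one_mul, add_zero] at key
    rw [Gh_eq hd Complex.I_ne_zero] at key
    refine fun h0 => right_ne_zero_of_mul key ?_
    rw [← h0]
    congr 1
    funext f
    rw [div_eq_iff Complex.I_ne_zero]
    apply Complex.ext <;> simp [hx, hy]
  · by_cases hs0 : s = 0
    · simpa [hs0] using htop fun f => r * y f
    · have h1 : s = (s.re : ℂ) := Complex.ext rfl (by simpa using hs)
      rw [Complex.ofReal_one, one_mul, add_zero, h1]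
      refine hreal _ (fun h2 => hs0 (by rw [h1, h2]; rfl)) _ fun f hf => ?_
      simpa using hx0 f hf
  · by_contra hlt
    rw [not_le, div_lt_iff₀ hη] at hlt
    have hS : 0 ≤ ∑ f ∈ F, (|x f| + |y f|) := Finset.sum_nonneg fun _ _ => by positivity
    have hs0 : s ≠ 0 := by
      rintro rfl
      rw [norm_zero, zero_mul] at hlt
      linarith
    rw [Complex.ofReal_one, one_mul, add_zero, Gh_eq hd hs0] at h0
    refine hball (fun f => (x f * Complex.I + r * y f) / s) (fun f hf => ?_) ?_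
    · rw [norm_div, div_lt_iff₀ (norm_pos_iff.2 hs0), mul_comm η]
      refine lt_of_le_of_lt ?_ hlt
      refine le_trans ?_ (Finset.single_le_sum (f := fun f => |x f| + |y f|)
        (fun _ _ => by positivity) hf)
      refine (norm_add_le _ _).trans (add_le_add (by simp) ?_)
      rw [norm_mul, Complex.norm_real, Complex.norm_real, Real.norm_eq_abs, Real.norm_eq_abs,
        abs_of_nonneg hr.1]
      exact mul_le_of_le_one_left (abs_nonneg _) hr.2
    · rw [← (mul_eq_zero.1 h0).resolve_left (pow_ne_zero _ hs0)]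
      congr 1
      funext f
      field_simp
  · have hs0 : s ≠ 0 := by
      rintro rfl
      simp at hs
    rw [Complex.ofReal_one, one_mul, add_zero, Gh_eq hd hs0]
    refine mul_ne_zero (pow_ne_zero _ hs0) ?_
    have h1 : (fun f => ((x f : ℂ) * s + (x f * Complex.I + (0 : ℝ) * y f)) / s) =
        fun f => (x f : ℂ) * (1 + Complex.I / s) := by
      funext f
      rw [Complex.ofReal_zero]
      field_simp
      ring
    rw [h1]
    have hn : 0 < Complex.normSq s := Complex.normSq_pos.2 hs0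
    rcases lt_trichotomy (Complex.I / s).im 0 with h2 | h2 | h2
    · exact hneg _ fun f hf => by simpa using mul_neg_of_pos_of_neg (hx0 f hf) h2
    · have h3 : 0 < (Complex.I / s).re := by
        rw [Complex.div_re]
        simpa using div_pos hs hn
      have h4 := hpos 1 (fun f => x f * (1 + (Complex.I / s).re)) zero_le_one
        fun f hf => mul_pos (hx0 f hf) (by linarith)
      rw [Complex.ofReal_one, Gh_eq hd one_ne_zero] at h4
      have h5 : Complex.I / s = ((Complex.I / s).re : ℂ) := Complex.ext rfl (by simpa using h2)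
      rw [h5]
      simpa using h4
    · exact h _ fun f hf => by simpa using mul_pos (hx0 f hf) h2

/-- strongly Rayleigh measures are Hurwitz stable -/
theorem IsStronglyRayleigh.isHurwitz {μ : Measure (X → Bool)} (h : IsStronglyRayleigh μ) :
    IsHurwitz μ := by
  have := h.1
  refine ⟨h.1, fun F z hz => ?_⟩
  rw [genPoly_eq]
  refine gs_ne_of_stable (fun T _ => P143.H71.qq_nonneg μ F T) (fun z hz => ?_) z hz
  rw [← genPoly_eq]
  exact h.2 F z hz

end Vale.Agent.N143
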