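import Vale.Agent.N143.Loc

/-!
Hurwitz stable measures are produced by the flow of their tilted marginals.
-/

namespace Vale.Agent.N143

open Filter Topology MeasureTheory Vale.Agent.P143 Vale.Agent.P143.H536 unitInterval SimpleGraph
open Vale.Agent.P143.H71 (qq LB dft prior_qq)

variable {X : Type*} {μ : Measure (X → Bool)}

theorem IsHurwitz.tendsto_dft [DecidableEq X] (h : IsHurwitz μ) {w : X → ℝ} {K : ℝ}
    (hw : LB K w) (e : X) :
    Tendsto (fun F : Finset X => upr F.powerset (qq μ F) w e) atTop (𝓝 (dft μ w e)) := by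
  have hc : CauchySeq fun F : Finset X => upr F.powerset (qq μ F) w e := by
    rw [Metric.cauchySeq_iff]
    intro ε hε
    obtain ⟨F, hF⟩ := h.loc e K (half_pos hε)
    exact ⟨F, fun G hG G' hG' =>
      (hF G G' w w hG hG' hw hw fun _ _ => rfl).trans_lt (half_lt_self hε)⟩
  obtain rfl : ‹DecidableEq X› = fun a b => Classical.propDecidable (a = b) :=
    Subsingleton.elim _ _
  unfold dft
  rw [if_pos ⟨K, hw⟩]
  exact hc.tendsto_limUnder

theorem IsHurwitz.isDrift_dft (h : IsHurwitz μ) : IsDrift (dft μ) := by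
  classical
  have := h.1
  refine ⟨fun w hw e => ?_, fun w hw e => ?_, fun w w' hw hw' δ hδ e => ?_⟩
  · by_cases hC : ∃ C, LB C w
    · obtain ⟨C, hC⟩ := hC
      exact ge_of_tendsto' (h.tendsto_dft hC e) fun F => upr_nonneg (prior_qq μ F) hw e
    · unfold dft; rw [if_neg hC]
  · by_cases hC : ∃ C, LB C w
    · obtain ⟨C, hC⟩ := hC
      exact le_of_tendsto' (h.tendsto_dft hC e) fun F => upr_le_one (prior_qq μ F) hw e
    · unfold dft; rw [if_neg hC]; exact zero_le_one
  · have hδ0 : 0 ≤ δ := (abs_nonneg _).trans (hδ e)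
    by_cases hC : ∃ C, LB C w
    · obtain ⟨C, hC⟩ := hC
      have hC' : LB (C + δ) w' := fun f => ⟨hw' f, by
        have h1 := (hC f).2
        have h2 := hδ f
        rw [abs_le] at h1 h2 ⊢
        constructor <;> linarith⟩
      refine le_of_tendsto' (((h.tendsto_dft hC e).sub (h.tendsto_dft hC' e)).abs) fun F => ?_
      exact (h.drift F).lip w w' hw hw' δ hδ e
    · have h' : ¬ ∃ C, LB C w' := by
        rintro ⟨C, hC'⟩
        exact hC ⟨C + δ, fun f => ⟨hw f, by
          have h1 := (hC' f).2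
          have h2 := hδ f
          rw [abs_le] at h1 h2 ⊢
          constructor <;> linarith⟩⟩
      unfold dft
      rw [if_neg hC, if_neg h', sub_zero, abs_zero]
      linarith

theorem IsHurwitz.convDriftB [DecidableEq X] (h : IsHurwitz μ) (F : ℕ → Finset X)
    (hF : Monotone F) (hFE : ∀ e, ∃ n, e ∈ F n) :
    ConvDriftB (fun n => upr (F n).powerset (qq μ (F n))) (dft μ) := by
  intro w wn K hw hwn hwK hwnK hlim e
  have hLB : LB K w := fun f => ⟨hw f, hwK f⟩
  rw [Metric.tendsto_nhds]
  intro ε hε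
  obtain ⟨F₀, hF₀⟩ := h.loc e K (show 0 < ε / 3 by positivity)
  have h1 : ∀ᶠ n in atTop, ∀ f ∈ F₀, f ∈ F n := by
    refine (eventually_all_finset F₀).2 fun f _ => ?_
    obtain ⟨n, hn⟩ := hFE f
    filter_upwards [eventually_ge_atTop n] with m hm using hF hm hn
  have h2 : ∀ᶠ n in atTop, ∀ f ∈ F₀, |Real.log (wn n f) - Real.log (w f)| ≤ ε / 12 := by
    refine (eventually_all_finset F₀).2 fun f _ => ?_
    have h3 := Metric.tendsto_nhds.1 ((hlim f).log (hw f).ne') (ε / 12) (by positivity)
    filter_upwards [h3] with n hn using hn.le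
  filter_upwards [h1, h2] with n hn1 hn2
  set w' : X → ℝ := fun f => if f ∈ F₀ then w f else wn n f with hw'
  have hLB' : LB K w' := fun f => by
    simp only [hw']
    split_ifs
    · exact hLB f
    · exact ⟨hwn n f, hwnK n f⟩
  have h3 := (h.drift (F n)).lip (wn n) w' (hwn n) hLB'.pos (ε / 12) (fun f => by
    simp only [hw']
    split_ifs with hf
    · exact hn2 f hf
    · rw [sub_self, abs_zero]; positivity) e
  have h4 : |upr (F n).powerset (qq μ (F n)) w' e - dft μ w e| ≤ ε / 3 := by
    refine le_of_tendsto (((h.tendsto_dft hLB e).const_sub _).abs) ?_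
    filter_upwards [eventually_ge_atTop F₀] with G hG
    exact hF₀ (F n) G w' w hn1 hG hLB' hLB fun f hf => by simp only [hw', if_pos hf]
  rw [Real.dist_eq]
  rw [abs_le] at h3 h4
  rw [abs_lt]
  constructor <;> linarith [h3.1, h3.2, h4.1, h4.2]

theorem IsHurwitz.good [Countable X] (h : IsHurwitz μ) : Good (dft μ) μ := by
  classical
  have := h.1
  have hmd : ∀ e, Measurable fun w : X → ℝ => dft μ w e := fun e =>
    (H71.measurable_dft e).comp (measurable_const.prodMk measurable_id)
  refine ⟨h.isDrift_dft, hmd, ?_⟩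
  have hmeas := measurable_conf_fixed (dft μ) h.isDrift_dft hmd
  have hpm : IsProbabilityMeasure
      ((Measure.infinitePi fun _ : X => logistic).map (conf (dft μ))) :=
    Measure.isProbabilityMeasure_map hmeas.aemeasurable
  refine H71.ext_cyl fun S B hB => ?_
  obtain ⟨F, hF, hFE⟩ := H71.exists_exhaustion_finset (E := X)
  have h1 := limit_mainq (Measure.infinitePi fun _ : X => logistic) Set.univ F hF
    (fun e => ⟨fun _ => hFE e, fun _ => Set.mem_univ e⟩)
    (fun n => (F n).powerset) (fun n => qq μ (F n)) (fun n => prior_qq μ (F n))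
    (fun n T hT => Finset.mem_powerset.1 hT) (dft μ) h.isDrift_dft hmd (fun n => h.drift (F n))
    (h.convDriftB F hF hFE) (fun z => z) measurable_id
    (fun S _ => Measure.infinitePi_map_restrict (μ := fun _ : X => logistic)) S B
    (Set.subset_univ _) hB
  rw [map_measureReal_apply hmeas (measurableSet_cyl' S B)]
  have h7 : (conf (dft μ) ⁻¹' {ω : X → Bool | ∀ e ∈ S, (ω e = true ↔ e ∈ B)}) =
      {z | ∀ e ∈ S, (e ∈ limitSet (dft μ) z ↔ e ∈ B)} := by
    ext z
    simp only [Set.mem_preimage, Set.mem_ofPred_eq, conf_eq_true]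
  rw [h7]
  refine tendsto_nhds_unique h1 (tendsto_const_nhds.congr' ?_)
  have h3 : ∀ᶠ n in atTop, ∀ f ∈ S, f ∈ F n := by
    refine (eventually_all_finset S).2 fun f _ => ?_
    obtain ⟨n, hn⟩ := hFE f
    filter_upwards [eventually_ge_atTop n] with m hm using hF hm hn
  filter_upwards [h3] with n hn
  rw [H71.sum_qq_univ, div_one, H71.sum_qq_inter μ hn hB]
  rfl

theorem qq_eq_zero [IsProbabilityMeasure μ] {F T : Finset X} (hT : T ⊆ F) {e : X} (he : e ∈ T)
    (h0 : μ {ω | ω e = true} = 0) : qq μ F T = 0 := by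
  unfold qq
  rw [measureReal_def, measure_mono_null (fun ω hω => (hω e (hT he)).2 he) h0,
    ENNReal.toReal_zero]

theorem IsHurwitz.localOn (h : IsHurwitz μ) {A : Set X}
    (hA : ∀ e ∉ A, μ {ω | ω e = true} = 0) : LocalOn A (dft μ) := by
  classical
  have := h.1
  intro w w' K hw hw' hK hK' hww e _
  refine tendsto_nhds_unique (h.tendsto_dft (K := K) (fun f => ⟨hw f, hK f⟩) e)
    ((h.tendsto_dft (K := K) (fun f => ⟨hw' f, hK' f⟩) e).congr fun F => ?_)
  have h1 : ∀ T ∈ F.powerset, qq μ F T * ∏ j ∈ T, w' j = qq μ F T * ∏ j ∈ T, w j := by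
    intro T hT
    by_cases hTA : ∀ f ∈ T, f ∈ A
    · rw [Finset.prod_congr rfl fun f hf => hww f (hTA f hf)]
    · push Not at hTA
      obtain ⟨f, hf, hfA⟩ := hTA
      rw [qq_eq_zero (Finset.mem_powerset.1 hT) hf (hA f hfA), zero_mul, zero_mul]
  unfold upr
  rw [Finset.sum_congr rfl h1,
    Finset.sum_congr rfl fun T hT => h1 T (Finset.mem_filter.1 hT).1]

theorem IsHurwitz.dft_eq_zero (h : IsHurwitz μ) {e : X} (he : μ {ω | ω e = true} = 0)
    (w : X → ℝ) : dft μ w e = 0 := by
  classical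
  have := h.1
  by_cases hC : ∃ C, LB C w
  · obtain ⟨C, hC⟩ := hC
    refine tendsto_nhds_unique (h.tendsto_dft hC e) (tendsto_const_nhds.congr fun F => ?_)
    unfold upr
    rw [Finset.sum_eq_zero, zero_div]
    intro T hT
    rw [Finset.mem_filter, Finset.mem_powerset] at hT
    rw [qq_eq_zero hT.1 hT.2 he, zero_mul]
  · unfold dft
    rw [if_neg hC]

theorem IsHurwitz.rul_law [Countable X] (h : IsHurwitz μ) :
    (iidLabels X).map (H71.rul μ) = μ := by
  have h0 := h.good.label_law
  have h1 : (fun U : X → I => conf (dft μ) fun e => dec (U e)) = H71.rul μ := by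
    funext U
    exact (H71.conf_eq μ _).symm
  rwa [h1] at h0

theorem IsHurwitz.grul_law {V : Type*} [Countable V] (G : SimpleGraph V)
    (hG : ∀ v, (G.neighborSet v).Finite) {μ : Measure (Sym2 V → Bool)} (h : IsHurwitz μ)
    (hA : ∀ e ∉ G.edgeSet, μ {ω | ω e = true} = 0) : (iidLabels V).map (grul G μ) = μ := by
  have : Countable (Sym2 V) := Quotient.countable
  have hp : IsProbabilityMeasure (iidLabels V) := by unfold iidLabels; infer_instance
  have h0 := h.good.law_local (h.localOn hA)
    (fun e he w _ => h.dft_eq_zero (hA e he) w) (iidLabels V) (fun U => edgeNoise G U)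
    (measurable_edgeNoise_fixed G)
    (map_edgeNoiseAux logistic G.Adj hG G.edgeSet (fun v w h => by
      rw [SimpleGraph.mem_edgeSet] at h
      exact ⟨h, h.ne⟩))
  have h1 : (fun U : V → I => conf (dft μ) (edgeNoise G U)) = grul G μ := by
    funext U
    exact (H71.conf_eq μ _).symm
  rwa [h1] at h0

theorem IsHurwitz.isFactor {Γ : Type*} [Group Γ] [MulAction Γ X] [Countable X]
    (hΓ : ∀ x : X, Finite (MulAction.stabilizer Γ x)) (h : IsHurwitz μ)
    (hinv : Det.IsInvariant Γ μ) : Det.IsFactorOfIID Γ μ :=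
  h.good.isFactor (fun _ => Set.toFinite _) fun γ w _ x => H71.dft_smul hinv γ w x

end Vale.Agent.N143
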