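import Vale.Agent.N143.Disc
import Vale.Agent.P143.H536.GraphRule

/-!
Locality of the tilted marginals of Hurwitz stable measures.
-/

namespace Vale.Agent.N143

open Filter Topology MeasureTheory Metric Vale.Agent.P143 Vale.Agent.P143.H536
open Vale.Agent.P143.H71 (qq LB dft prior_qq)

variable {X : Type*} [DecidableEq X] {μ : Measure (X → Bool)}

omit [DecidableEq X] in
theorem IsHurwitz.gs_ne (h : IsHurwitz μ) (F : Finset X) (z : X → ℂ)
    (hz : ∀ f ∈ F, 0 < (z f).re) : gs (qq μ F) F z ≠ 0 := by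
  have := h.1
  rw [← genPoly_eq]
  exact h.2 F z hz

theorem IsHurwitz.dz (h : IsHurwitz μ) (F : Finset X) : DZ (qq μ F) F := by
  simpa using dz_of_hurwitz (h.gs_ne F) (w := fun _ => 1) fun _ => one_pos

theorem IsHurwitz.drift (h : IsHurwitz μ) (F : Finset X) : IsDrift (upr F.powerset (qq μ F)) := by
  have := h.1
  exact isDrift_upr (prior_qq μ F) (h.gs_ne F)

theorem pr_filter (F : Finset X) (ω : X → Bool) (ζ : X → ℂ) :
    pr (F.filter fun f => ω f = true) F ζ =
      ∏ f ∈ F, (1 + (if ω f = true then 1 else -1) * ζ f) := by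
  refine Finset.prod_congr rfl fun f hf => ?_
  simp only [Finset.mem_filter, hf, true_and]

theorem rat_subset [IsProbabilityMeasure μ] {G G' : Finset X} (hG : G ⊆ G') {e : X} (he : e ∈ G)
    {ζ : X → ℂ} (h0 : ∀ f ∈ G', f ∉ G → ζ f = 0) :
    rat (qq μ G) G e ζ = rat (qq μ G') G' e ζ := by
  have h1 : ∀ ω : X → Bool, pr (G.filter fun f => ω f = true) G ζ =
      pr (G'.filter fun f => ω f = true) G' ζ := by
    intro ω
    rw [pr_filter, pr_filter]
    exact Finset.prod_subset hG fun f hf hf' => by rw [h0 f hf hf', mul_zero, add_zero]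
  unfold rat Ns Zs
  rw [sum_qq_eq μ G fun T => (if e ∈ T then 1 else 0) * pr T G ζ,
    sum_qq_eq μ G' fun T => (if e ∈ T then 1 else 0) * pr T G' ζ,
    sum_qq_eq μ G fun T => pr T G ζ, sum_qq_eq μ G' fun T => pr T G' ζ]
  simp only [h1, Finset.mem_filter, he, hG he, true_and]

theorem rat_congr (q : Finset X → ℝ) (G : Finset X) (e : X) {ζ ζ' : X → ℂ}
    (h : ∀ f ∈ G, ζ f = ζ' f) : rat q G e ζ = rat q G e ζ' := by
  have h1 : ∀ T, pr T G ζ = pr T G ζ' := fun T =>
    Finset.prod_congr rfl fun f hf => by rw [h f hf]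
  unfold rat Ns Zs
  simp only [h1]

/-- the tilted marginal along the ray through a lattice point -/
noncomputable def lat (μ : Measure (X → Bool)) (e : X) (δ : ℝ) (x : X →₀ ℤ) (t : ℂ) : ℂ :=
  rat (qq μ (insert e x.support)) (insert e x.support) e fun f => t * ((δ * x f : ℝ) : ℂ)

theorem lat_eq [IsProbabilityMeasure μ] {e : X} (δ : ℝ) {x : X →₀ ℤ} {G : Finset X} (he : e ∈ G)
    (hx : x.support ⊆ G) (t : ℂ) :
    lat μ e δ x t = rat (qq μ G) G e fun f => t * ((δ * x f : ℝ) : ℂ) := by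
  refine rat_subset (Finset.insert_subset he hx) (Finset.mem_insert_self _ _) fun f _ hf => ?_
  rw [Finset.mem_insert, not_or, Finsupp.notMem_support_iff] at hf
  simp [hf.2]

theorem gr_rat [IsProbabilityMeasure μ] (G : Finset X) (e : X) (δ : ℝ) :
    Gr fun (x : X →₀ ℤ) t => rat (qq μ G) G e fun f => t * ((δ * x f : ℝ) : ℂ) := by
  have h1 : ∀ T : Finset X, Gr fun (x : X →₀ ℤ) t =>
      pr T G fun f => t * ((δ * x f : ℝ) : ℂ) := by
    intro T
    refine Gr.prod G (g := fun f (x : X →₀ ℤ) t =>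
      1 + (if f ∈ T then 1 else -1) * (t * ((δ * x f : ℝ) : ℂ))) fun f _ => ?_
    refine (Gr.const 1).add ((Gr.const _).mul (Gr.lin ?_))
    intro y x
    simp only [Finsupp.add_apply, zero_add, Finsupp.coe_zero, Pi.zero_apply]
    push_cast
    ring
  refine Gr.div (Gr.sum _ fun T _ => (Gr.const _).mul ((Gr.const _).mul (h1 T)))
    (Gr.sum _ fun T _ => (Gr.const _).mul (h1 T)) fun x => ?_
  simp only [Zs, pr, zero_mul, mul_zero, add_zero, Finset.prod_const_one, mul_one]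
  exact_mod_cast H71.sum_qq_univ μ G

theorem deg_lat [IsProbabilityMeasure μ] (e : X) (δ : ℝ) (j : ℕ) :
    Deg j fun x : X →₀ ℤ => iteratedDeriv j (lat μ e δ x) 0 := by
  refine Deg.of_local fun G => ⟨_, (gr_rat (μ := μ) (insert e G) e δ).deg j, fun x hx => ?_⟩
  congr 1
  funext t
  exact lat_eq δ (Finset.mem_insert_self _ _) (hx.trans (Finset.subset_insert _ _)) t

omit [DecidableEq X] in
theorem lat_aux {δ ρ r : ℝ} {x : X →₀ ℤ} (hx : ∀ f, ρ * |δ * x f| ≤ r) {t : ℂ}
    (ht : t ∈ closedBall (0 : ℂ) ρ) (f : X) : ‖t * ((δ * x f : ℝ) : ℂ)‖ ≤ r := by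
  rw [norm_mul, Complex.norm_real, Real.norm_eq_abs]
  exact (mul_le_mul_of_nonneg_right (mem_closedBall_zero_iff.1 ht) (abs_nonneg _)).trans (hx f)

theorem IsHurwitz.diffOn_lat (h : IsHurwitz μ) (e : X) {δ ρ r : ℝ} (hr : r < 1) {x : X →₀ ℤ}
    (hx : ∀ f, ρ * |δ * x f| ≤ r) : DifferentiableOn ℂ (lat μ e δ x) (closedBall 0 ρ) := by
  intro t ht
  have := differentiableAt_rat (h.dz (insert e x.support)) e (fun _ => 0)
    (fun f => ((δ * x f : ℝ) : ℂ)) (t := t)
    (fun f _ => by rw [zero_add]; exact (lat_aux hx ht f).trans_lt hr)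
  simp only [zero_add] at this
  exact this.differentiableWithinAt

theorem IsHurwitz.cauchy (h : IsHurwitz μ) (e : X) {δ ρ r : ℝ} (hρ : 0 < ρ) (hr : r < 1)
    {x : X →₀ ℤ} (hx : ∀ f, ρ * |δ * x f| ≤ r) (n : ℕ) :
    ‖((n.factorial : ℂ))⁻¹ * iteratedDeriv n (lat μ e δ x) 0‖ ≤ (1 + r) / (1 - r) * ρ⁻¹ ^ n := by
  have h1 := Complex.norm_iteratedDeriv_le_of_forall_mem_sphere_norm_le (f := lat μ e δ x)
    (c := 0) (C := (1 + r) / (1 - r)) n hρ
    (DifferentiableOn.diffContOnCl (by rw [closure_ball _ hρ.ne']; exact h.diffOn_lat e hr hx))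
    fun t ht => norm_rat_le (h.dz _) (Finset.mem_insert_self _ _) hr
      fun f _ => lat_aux hx (sphere_subset_closedBall ht) f
  have h2 : (0 : ℝ) < n.factorial := by exact_mod_cast n.factorial_pos
  rw [norm_mul, norm_inv, Complex.norm_natCast, inv_mul_le_iff₀ h2, inv_pow]
  refine h1.trans_eq ?_
  ring

/-- locality on lattices -/
theorem IsHurwitz.lat_loc (h : IsHurwitz μ) (e : X) {δ r ε : ℝ} (hδ : 0 < δ) (hr0 : 0 ≤ r)
    (hr : r < 1) (hε : 0 < ε) : ∃ F : Finset X, ∀ x y : X →₀ ℤ, (∀ f, |δ * x f| ≤ r) →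
      (∀ f, |δ * y f| ≤ r) → (∀ f ∈ F, x f = y f) →
      |(lat μ e δ x 1).re - (lat μ e δ y 1).re| ≤ ε := by
  have := h.1
  set ρ : ℝ := 2 / (1 + r) with hρ
  have hρ1 : 1 < ρ := by rw [hρ, one_lt_div (by linarith)]; linarith
  have hρr : ρ * r < 1 := by
    rw [hρ, div_mul_eq_mul_div, div_lt_one (by linarith)]; linarith
  have hinv : ρ⁻¹ < 1 := inv_lt_one_of_one_lt₀ hρ1
  set C : ℝ := (1 + ρ * r) / (1 - ρ * r) with hC
  have htend : Tendsto (fun n : ℕ => C * ρ⁻¹ ^ n / (1 - ρ⁻¹)) atTop (𝓝 0) := by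
    have := ((tendsto_pow_atTop_nhds_zero_of_lt_one (by positivity) hinv).const_mul C).div_const
      (1 - ρ⁻¹)
    simpa using this
  obtain ⟨M, hM⟩ := (htend.eventually_lt_const (show 0 < ε / 3 by positivity)).exists
  set P : (X →₀ ℤ) → ℝ := fun x => (∑ n ∈ Finset.range M,
    ((n.factorial : ℂ))⁻¹ * iteratedDeriv n (lat μ e δ x) 0).re with hP
  have happ : ∀ x : X →₀ ℤ, (∀ f, |δ * x f| ≤ r) → |P x - (lat μ e δ x 1).re| ≤ ε / 3 := by
    intro x hx
    have hx' : ∀ f, ρ * |δ * x f| ≤ ρ * r :=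
      fun f => mul_le_mul_of_nonneg_left (hx f) (by linarith)
    have h1 := Complex.hasSum_taylorSeries_on_ball
      ((h.diffOn_lat e hρr hx').mono ball_subset_closedBall) (z := 1)
      (by rw [mem_ball_zero_iff, norm_one]; exact hρ1)
    simp only [sub_zero, one_pow, smul_eq_mul, one_mul] at h1
    have h2 := norm_sub_le_of_geometric_bound_of_hasSum hinv
      (h.cauchy e (by linarith) hρr hx') h1 M
    rw [hP, ← Complex.sub_re]
    exact (Complex.abs_re_le_norm _).trans (h2.trans hM.le)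
  have hdeg : Deg M P := by
    refine Deg.map (Complex.reCLM : ℂ →L[ℝ] ℝ).toLinearMap.toAddMonoidHom
      (Deg.sum (Finset.range M) fun n hn => ?_)
    exact ((deg_lat (μ := μ) e δ n).map (AddMonoidHom.mulLeft _)).mono (Finset.mem_range.1 hn).le
  have hbd : ∀ R : ℕ, ∃ C, ∀ x, Bdd R x → |P x| ≤ C := by
    intro R
    have hpos : 0 < 1 / (2 * (δ * R + 1)) := by positivity
    refine ⟨_, fun x hx => (Complex.abs_re_le_norm _).trans ((norm_sum_le _ _).trans
      (Finset.sum_le_sum fun n _ => h.cauchy e hpos (r := 1 / 2) (by norm_num) (fun f => ?_) n))⟩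
    have h1 : |(x f : ℝ)| ≤ R := by exact_mod_cast hx f
    rw [abs_mul, abs_of_pos hδ, div_mul_eq_mul_div, div_le_div_iff₀ (by positivity) two_pos]
    nlinarith [mul_le_mul_of_nonneg_left h1 hδ.le]
  obtain ⟨R, hR⟩ := exists_nat_ge (r / δ)
  have hBdd : ∀ x : X →₀ ℤ, (∀ f, |δ * x f| ≤ r) → Bdd R x := by
    intro x hx f
    have h1 := hx f
    rw [abs_mul, abs_of_pos hδ, ← le_div_iff₀' hδ] at h1
    exact_mod_cast h1.trans hR
  obtain ⟨F, hF⟩ := isLoc_of_deg hdeg hbd (R + R) (ε / 3) (by positivity)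
  refine ⟨F, fun x y hx hy hxy => ?_⟩
  have h1 := hF x (y + -x) ((hBdd x hx).mono (by omega))
    ((hBdd y hy).add (R' := R) fun f => by simpa using hBdd x hx f)
    fun f hf => by simp [hxy f hf]
  rw [add_add_neg_cancel'_right] at h1
  have h2 := abs_le.1 (happ x hx)
  have h3 := abs_le.1 (happ y hy)
  rw [abs_le] at h1 ⊢
  constructor <;> linarith [h1.1, h1.2, h2.1, h2.2, h3.1, h3.2]

omit [DecidableEq X] in
theorem abs_cayley_lt {K a : ℝ} (ha : 0 < a) (hK : |Real.log a| ≤ K) :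
    |(a - 1) / (a + 1)| ≤ 1 - 1 / (Real.exp K + 1) := by
  have h1 : a ≤ Real.exp K := by
    rw [← Real.log_le_iff_le_exp ha]; exact (le_abs_self _).trans hK
  have h2 : 1 ≤ a * Real.exp K := by
    have h3 : Real.exp (-K) ≤ a := by
      rw [← Real.le_log_iff_exp_le ha]; linarith [(abs_le.1 hK).1]
    have h4 := mul_le_mul_of_nonneg_right h3 (Real.exp_pos K).le
    rwa [← Real.exp_add, neg_add_cancel, Real.exp_zero] at h4
  have h3 := Real.exp_pos K
  have h4 : 1 - 1 / (Real.exp K + 1) = Real.exp K / (Real.exp K + 1) := by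
    field_simp
    ring
  rw [h4, abs_div, abs_of_pos (by linarith : 0 < a + 1), div_le_div_iff₀ (by linarith) (by linarith)]
  rcases abs_cases (a - 1) with h | h <;> rw [h.1] <;> nlinarith

/-- locality of the tilted marginals -/
theorem IsHurwitz.loc (h : IsHurwitz μ) (e : X) (K : ℝ) {ε : ℝ} (hε : 0 < ε) :
    ∃ F : Finset X, ∀ (G G' : Finset X) (w w' : X → ℝ), F ⊆ G → F ⊆ G' → LB K w → LB K w' →
      (∀ f ∈ F, w f = w' f) →
      |upr G.powerset (qq μ G) w e - upr G'.powerset (qq μ G') w' e| ≤ ε := by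
  have := h.1
  set s : ℝ := 1 / (Real.exp K + 1) with hs
  have hs0 : 0 < s := by positivity
  have hs1 : s ≤ 1 := by
    rw [hs, div_le_one (by positivity)]; linarith [Real.exp_pos K]
  set C : ℝ := (1 + (1 - s / 3)) / (1 - (1 - s / 3)) + 1 with hC
  have hC0 : 0 < C := by
    have : 0 ≤ (1 + (1 - s / 3)) / (1 - (1 - s / 3)) := div_nonneg (by linarith) (by linarith)
    linarith
  set δ : ℝ := min (s / 3) (ε / 3 * (2 * s / 3) / C) with hδ
  have hδ0 : 0 < δ := lt_min (by linarith) (by positivity)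
  have hδ1 : δ ≤ s / 3 := min_le_left _ _
  have hδ2 : C * δ / (1 - s / 3 - (1 - s)) ≤ ε / 3 := by
    have h1 : δ ≤ ε / 3 * (2 * s / 3) / C := min_le_right _ _
    rw [le_div_iff₀ hC0] at h1
    rw [div_le_iff₀ (by linarith)]
    linarith
  obtain ⟨F, hF⟩ := h.lat_loc e hδ0 (r := 1 - s / 3) (by linarith) (by linarith)
    (show 0 < ε / 3 by positivity)
  have round : ∀ (G : Finset X) (w : X → ℝ), e ∈ G → LB K w → ∃ x : X →₀ ℤ,
      (∀ f ∈ G, x f = ⌊(w f - 1) / (w f + 1) / δ⌋) ∧ (∀ f, |δ * x f| ≤ 1 - s / 3) ∧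
      |(lat μ e δ x 1).re - upr G.powerset (qq μ G) w e| ≤ ε / 3 := by
    intro G w he hw
    set x : X →₀ ℤ := Finsupp.onFinset G
      (fun f => if f ∈ G then ⌊(w f - 1) / (w f + 1) / δ⌋ else 0)
      (fun f hf => by by_contra h; exact hf (if_neg h)) with hx
    have hxG : ∀ f ∈ G, x f = ⌊(w f - 1) / (w f + 1) / δ⌋ := fun f hf => by
      rw [hx, Finsupp.onFinset_apply, if_pos hf]
    have hζ : ∀ f, |(w f - 1) / (w f + 1)| ≤ 1 - s := fun f => abs_cayley_lt (hw f).1 (hw f).2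
    have hcl : ∀ f ∈ G, |δ * x f - (w f - 1) / (w f + 1)| ≤ δ := by
      intro f hf
      rw [hxG f hf]
      have h1 := Int.floor_le ((w f - 1) / (w f + 1) / δ)
      have h2 := Int.lt_floor_add_one ((w f - 1) / (w f + 1) / δ)
      rw [le_div_iff₀ hδ0] at h1
      rw [div_lt_iff₀ hδ0] at h2
      rw [abs_le]
      constructor <;> linarith
    refine ⟨x, hxG, fun f => ?_, ?_⟩
    · by_cases hf : f ∈ G
      · have h1 := abs_le.1 (hcl f hf)
        have h2 := abs_le.1 (hζ f)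
        rw [abs_le]
        constructor <;> linarith [h1.1, h1.2, h2.1, h2.2]
      · rw [hx, Finsupp.onFinset_apply, if_neg hf]
        simp only [Int.cast_zero, mul_zero, abs_zero]
        linarith
    · have e0 := rat_real (qq μ G) G e (w := fun _ => 1) (fun _ => one_pos) hw.pos
      simp only [Finset.prod_const_one, mul_one] at e0
      have b1 := upr_nonneg (prior_qq μ G) hw.pos e
      have b2 := upr_le_one (prior_qq μ G) hw.pos e
      have key := rat_lip (h.dz G) he (ζ := fun f => (((w f - 1) / (w f + 1) : ℝ) : ℂ))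
        (v := fun f => ((δ * x f - (w f - 1) / (w f + 1) : ℝ) : ℂ)) (r := 1 - s) (ρ := 1 - s / 3)
        (η := δ) (D := 1) (by linarith) hδ0 (by linarith)
        (fun f _ => by rw [Complex.norm_real]; exact hζ f)
        (fun f hf => by rw [Complex.norm_real]; exact hcl f hf)
        (by rw [e0, Complex.norm_real, Real.norm_eq_abs, abs_of_nonneg b1]; exact b2)
      rw [e0] at key
      rw [lat_eq δ he Finsupp.support_onFinset_subset, ← Complex.ofReal_re (upr _ _ _ _),
        ← Complex.sub_re]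
      refine (Complex.abs_re_le_norm _).trans (le_trans (le_of_eq ?_) (key.trans hδ2))
      congr 2
      refine rat_congr _ _ _ fun f _ => ?_
      rw [← Complex.ofReal_add, one_mul, add_sub_cancel]
  refine ⟨insert e F, fun G G' w w' hG hG' hw hw' hww => ?_⟩
  obtain ⟨x, hx1, hx2, hx3⟩ := round G w (hG (Finset.mem_insert_self _ _)) hw
  obtain ⟨y, hy1, hy2, hy3⟩ := round G' w' (hG' (Finset.mem_insert_self _ _)) hw'
  have h1 := hF x y hx2 hy2 fun f hf => by
    have hf' := Finset.mem_insert_of_mem (b := e) hf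
    rw [hx1 f (hG hf'), hy1 f (hG' hf'), hww f hf']
  rw [abs_le] at h1 hx3 hy3 ⊢
  constructor <;> linarith [h1.1, h1.2, hx3.1, hx3.2, hy3.1, hy3.2]

end Vale.Agent.N143
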