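import Vale.Agent.N143.Disc
import Mathlib.MeasureTheory.Integral.BoundedContinuousFunction

/-!
The free uniform spanning forest is strongly Rayleigh.
-/

namespace Vale.Agent.N143

open Filter Topology MeasureTheory Vale.Agent.P143 SimpleGraph

/-- a lower bound for multi-affine functions without zeros -/
theorem lower_of_affine {X : Type*} [DecidableEq X] {g : (X → ℂ) → ℂ}
    (haff : ∀ z e, ∃ A B, ∀ t, g (Function.update z e t) = A + t * B)
    (hne : ∀ z : X → ℂ, (∀ f, 0 < (z f).im ∨ z f = 1) → g z ≠ 0) (z : X → ℂ) (S : Finset X)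
    (hz : ∀ f ∈ S, 0 < (z f).im) :
    ‖g fun _ => 1‖ ≤ (∏ f ∈ S, (1 + ‖1 - z f‖ / (z f).im)) * ‖g (S.piecewise z fun _ => 1)‖ := by
  induction S using Finset.induction_on with
  | empty => simp
  | insert e S he ih =>
    have hze := hz e (Finset.mem_insert_self _ _)
    have hzS : ∀ f ∈ S, 0 < (z f).im := fun f hf => hz f (Finset.mem_insert_of_mem hf)
    obtain ⟨A, B, hAB⟩ := haff (S.piecewise z fun _ => 1) e
    have h1 : g (S.piecewise z fun _ => 1) = A + B := by
      have := hAB 1
      rwa [Function.update_eq_self_iff.2 (Finset.piecewise_eq_of_notMem _ _ _ he).symm,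
        one_mul] at this
    have h2 : (z e).im * ‖B‖ ≤ ‖A + z e * B‖ := by
      have h3 := norm_le_of_affine (A := A + z e * B) (B := (z e).im * B) fun t ht => by
        have h4 : A + z e * B + t * ((z e).im * B) = A + (z e + t * (z e).im) * B := by ring
        rw [h4, ← hAB]
        refine hne _ fun f => ?_
        by_cases hf : f = e
        · left
          rw [hf, Function.update_self]
          have h5 := (abs_lt.1 ((Complex.abs_im_le_norm t).trans_lt ht)).1
          simp only [Complex.add_im, Complex.mul_im, Complex.ofReal_im, mul_zero,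
            Complex.ofReal_re, zero_add]
          nlinarith
        · rw [Function.update_of_ne hf]
          by_cases hfS : f ∈ S
          · left
            rw [Finset.piecewise_eq_of_mem _ _ _ hfS]
            exact hzS f hfS
          · right
            rw [Finset.piecewise_eq_of_notMem _ _ _ hfS]
      rwa [norm_mul, Complex.norm_real, Real.norm_eq_abs, abs_of_pos hze] at h3
    have h3 : ‖A + B‖ ≤ (1 + ‖1 - z e‖ / (z e).im) * ‖A + z e * B‖ := by
      have h4 : A + B = (A + z e * B) + (1 - z e) * B := by ring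
      have h5 : ‖B‖ ≤ ‖A + z e * B‖ / (z e).im := by rwa [le_div_iff₀' hze]
      rw [h4]
      refine (norm_add_le _ _).trans ?_
      rw [norm_mul, add_mul, one_mul, div_mul_eq_mul_div, mul_div_assoc]
      exact add_le_add le_rfl (mul_le_mul_of_nonneg_left h5 (norm_nonneg _))
    rw [Finset.prod_insert he, Finset.piecewise_insert, hAB, mul_comm (1 + _), mul_assoc]
    refine (ih hzS).trans (mul_le_mul_of_nonneg_left (h1 ▸ h3) ?_)
    exact Finset.prod_nonneg fun f hf => by have := hzS f hf; positivity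

variable {V : Type*} [DecidableEq (Sym2 V)]

/-- Kirchhoff double counting with complex weights -/
theorem kirchhoffC {F : Finset (Sym2 V)} {x y : V} (hxy : x ≠ y) (he : s(x, y) ∈ F)
    (w : Sym2 V → ℂ) (v : V → ℝ) :
    ∑ f ∈ F, w f * ∑ T ∈ spans F with s(x, y) ∈ T,
      (∏ g ∈ T.erase s(x, y), w g) * cutg (T.erase s(x, y)) x v f
    = (∑ T ∈ spans F, ∏ g ∈ T, w g) * (v x - v y : ℝ) := by
  classical
  rw [Finset.sum_mul]
  have h1 : ∀ T ∈ spans F, (∏ g ∈ T, w g) * (v x - v y : ℝ) =
      ∑ f ∈ F, if f ∈ T ∧ ¬ Conn (T.erase f) x y then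
        (∏ g ∈ T, w g) * cutg (T.erase f) x v f else 0 := by
    intro T hT
    rw [mem_spans] at hT
    rw [← sum_cutg' hT.2.1 v (hT.2.2 _ _ (conn_of_mem he)), Complex.ofReal_sum, Finset.mul_sum,
      ← Finset.sum_filter]
    refine Finset.sum_congr ?_ fun _ _ => rfl
    ext f
    simp only [Finset.mem_filter]
    exact ⟨fun h => ⟨hT.1 h.1, h⟩, fun h => h.2⟩
  rw [Finset.sum_congr rfl h1]
  have h2 : ∀ f ∈ F, w f * ∑ T ∈ spans F with s(x, y) ∈ T,
      (∏ g ∈ T.erase s(x, y), w g) * cutg (T.erase s(x, y)) x v f =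
      ∑ T ∈ spans F, if s(x, y) ∈ T ∧ Cross (T.erase s(x, y)) x f then
        w f * ((∏ g ∈ T.erase s(x, y), w g) * cutg (T.erase s(x, y)) x v f) else 0 := by
    intro f _
    rw [Finset.mul_sum, Finset.sum_filter]
    refine Finset.sum_congr rfl fun T _ => ?_
    by_cases h3 : s(x, y) ∈ T
    · by_cases h4 : Cross (T.erase s(x, y)) x f
      · simp [h3, h4]
      · simp [h3, h4, cutg_of_not_cross h4]
    · simp [h3]
  rw [Finset.sum_congr rfl h2, Finset.sum_comm (s := spans F) (t := F),
    ← Finset.sum_product', ← Finset.sum_product', ← Finset.sum_filter, ← Finset.sum_filter]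
  refine Finset.sum_nbij' (fun p => (p.1, insert p.1 (p.2.erase s(x, y))))
    (fun p => (p.1, insert s(x, y) (p.2.erase p.1))) ?_ ?_ ?_ ?_ ?_
  · rintro ⟨f, T⟩ h
    simp only [Finset.mem_filter, Finset.mem_product] at h ⊢
    obtain ⟨⟨h3, h4⟩, h5, h6⟩ := h
    have h7 : f ∉ T.erase s(x, y) := h6.not_mem
    refine ⟨⟨h3, ?_⟩, Finset.mem_insert_self _ _, ?_⟩
    · refine spans_exchange₁ (x := x) (y := y) h3 ?_ h6
      rwa [Finset.insert_erase h5]
    · rw [Finset.erase_insert h7]
      rw [mem_spans] at h4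
      exact h4.2.1.not_conn hxy h5
  · rintro ⟨f, T⟩ h
    simp only [Finset.mem_filter, Finset.mem_product] at h ⊢
    obtain ⟨⟨h3, h4⟩, h5, h6⟩ := h
    have h8 : s(x, y) ∉ T.erase f := fun h => h6 (conn_of_mem h)
    have h7 := spans_exchange₂ (f := f) (B := T.erase f) he (by rwa [Finset.insert_erase h5]) h6
    refine ⟨⟨h3, h7.1⟩, Finset.mem_insert_self _ _, ?_⟩
    rw [Finset.erase_insert h8]
    exact h7.2
  · rintro ⟨f, T⟩ h
    simp only [Finset.mem_filter, Finset.mem_product] at h ⊢
    obtain ⟨⟨h3, h4⟩, h5, h6⟩ := h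
    rw [Finset.erase_insert h6.not_mem, Finset.insert_erase h5]
  · rintro ⟨f, T⟩ h
    simp only [Finset.mem_filter, Finset.mem_product] at h ⊢
    obtain ⟨⟨h3, h4⟩, h5, h6⟩ := h
    have h8 : s(x, y) ∉ T.erase f := fun h => h6 (conn_of_mem h)
    rw [Finset.erase_insert h8, Finset.insert_erase h5]
  · rintro ⟨f, T⟩ h
    simp only [Finset.mem_filter, Finset.mem_product] at h ⊢
    obtain ⟨⟨h3, h4⟩, h5, h6⟩ := h
    rw [Finset.prod_insert h6.not_mem, Finset.erase_insert h6.not_mem]
    ring

/-- the spanning tree polynomial -/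
noncomputable def zc (F : Finset (Sym2 V)) (w : Sym2 V → ℂ) : ℂ := ∑ T ∈ spans F, ∏ g ∈ T, w g

theorem zc_update (F : Finset (Sym2 V)) (w : Sym2 V → ℂ) (e : Sym2 V) (t : ℂ) :
    zc F (Function.update w e t) = (∑ T ∈ spans F with e ∉ T, ∏ g ∈ T, w g) +
      t * ∑ T ∈ spans F with e ∈ T, ∏ g ∈ T.erase e, w g := by
  unfold zc
  rw [← Finset.sum_filter_not_add_sum_filter _ (e ∈ ·), Finset.mul_sum]
  congr 1
  · refine Finset.sum_congr rfl fun T hT => Finset.prod_congr rfl fun g hg => ?_
    exact Function.update_of_ne (fun h : g = e => (Finset.mem_filter.1 hT).2 (h ▸ hg)) _ _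
  · refine Finset.sum_congr rfl fun T hT => ?_
    rw [Finset.prod_update_of_mem (Finset.mem_filter.1 hT).2, Finset.sdiff_singleton_eq_erase]

theorem deriv_eq_zero {F : Finset (Sym2 V)} (hF : ∀ e ∈ F, ¬ e.IsDiag) {w : Sym2 V → ℂ}
    (hw : ∀ f, 0 < (w f).im ∨ w f = 1) (h0 : zc F w = 0) (e : Sym2 V) :
    ∑ T ∈ spans F with e ∈ T, ∏ g ∈ T.erase e, w g = 0 := by
  classical
  by_cases he : e ∈ F
  swap
  · refine Finset.sum_eq_zero fun T hT => ?_
    rw [Finset.mem_filter] at hT
    exact absurd (spans_subset hT.1 hT.2) he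
  induction e with | _ x y
  have hxy : x ≠ y := fun h => hF _ he (Sym2.mk_isDiag_iff.2 h)
  set ψ : V → ℂ := fun u => ∑ T ∈ spans F with s(x, y) ∈ T, (∏ g ∈ T.erase s(x, y), w g) *
    (if Conn (T.erase s(x, y)) x u then 1 else 0) with hψ
  set R : V → ℝ := fun u => (ψ u).re with hR
  set J : V → ℝ := fun u => (ψ u).im with hJ
  have h1 : ∀ v : V → ℝ, ∑ f ∈ F, w f * (dd R v f + dd J v f * Complex.I) = 0 := by
    intro v
    have h := kirchhoffC hxy he w v
    rw [show ∑ T ∈ spans F, ∏ g ∈ T, w g = 0 from h0, zero_mul] at h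
    refine Eq.trans (Finset.sum_congr rfl fun f _ => ?_) h
    congr 1
    induction f with | _ a b
    have h2 : (dd R v s(a, b) : ℂ) + dd J v s(a, b) * Complex.I = (ψ a - ψ b) * (v a - v b) := by
      rw [dd_mk, dd_mk]
      apply Complex.ext <;> simp [hR, hJ]
    rw [h2, hψ, ← Finset.sum_sub_distrib, Finset.sum_mul]
    refine Finset.sum_congr rfl fun T _ => ?_
    rw [cutg_mk]
    split_ifs <;> push_cast <;> ring
  have h2 : ∑ f ∈ F, w f * ((dd R R f + dd J J f : ℝ) : ℂ) = 0 := by
    have h3 : ∑ f ∈ F, w f * (dd R R f + dd J R f * Complex.I) - Complex.I *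
        ∑ f ∈ F, w f * (dd R J f + dd J J f * Complex.I) = 0 := by rw [h1, h1]; simp
    rw [Finset.mul_sum, ← Finset.sum_sub_distrib] at h3
    refine Eq.trans (Finset.sum_congr rfl fun f _ => ?_) h3
    induction f with | _ a b
    simp only [dd_mk]
    push_cast
    linear_combination (w s(a, b) * ((J a : ℂ) - J b) ^ 2) * Complex.I_sq
  have hnn : ∀ f, 0 ≤ dd R R f + dd J J f :=
    fun f => add_nonneg (dd_self_nonneg R f) (dd_self_nonneg J f)
  have h3 : ∀ f ∈ F, (w f).im * (dd R R f + dd J J f) = 0 := by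
    refine (Finset.sum_eq_zero_iff_of_nonneg fun f _ => mul_nonneg ?_ (hnn f)).1 ?_
    · rcases hw f with h | h
      · exact h.le
      · simp [h]
    · have := congrArg Complex.im h2
      simpa only [Complex.im_sum, Complex.mul_im, Complex.ofReal_re, Complex.ofReal_im, mul_zero,
        zero_add, Complex.zero_im] using this
  have h4 : ∀ f ∈ F, dd R R f + dd J J f = 0 := by
    refine (Finset.sum_eq_zero_iff_of_nonneg fun f _ => hnn f).1 ?_
    have := congrArg Complex.re h2
    simp only [Complex.re_sum, Complex.mul_re, Complex.ofReal_re, Complex.ofReal_im, mul_zero,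
      sub_zero, Complex.zero_re] at this
    refine Eq.trans (Finset.sum_congr rfl fun f hf => ?_) this
    rcases hw f with h | h
    · rw [(mul_eq_zero.1 (h3 f hf)).resolve_left h.ne', mul_zero]
    · simp [h]
  have h5 := h4 _ he
  rw [dd_mk, dd_mk] at h5
  have h6 : ψ x - ψ y = 0 := by
    apply Complex.ext
    · change R x - R y = 0
      nlinarith [mul_self_nonneg (R x - R y), mul_self_nonneg (J x - J y)]
    · change J x - J y = 0
      nlinarith [mul_self_nonneg (R x - R y), mul_self_nonneg (J x - J y)]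
  rw [← h6, hψ, ← Finset.sum_sub_distrib]
  refine Finset.sum_congr rfl fun T hT => ?_
  rw [Finset.mem_filter, mem_spans] at hT
  simp [Conn.refl, hT.1.2.1.not_conn hxy hT.2]

theorem zc_ne_zero {F : Finset (Sym2 V)} (hF : ∀ e ∈ F, ¬ e.IsDiag) (w : Sym2 V → ℂ)
    (hw : ∀ f, 0 < (w f).im ∨ w f = 1) : zc F w ≠ 0 := by
  intro h0
  have key : ∀ S : Finset (Sym2 V), zc F (S.piecewise (fun _ => 1) w) = 0 := by
    intro S
    induction S using Finset.induction_on with
    | empty => simpa using h0
    | insert e S _ ih =>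
      have h1 := deriv_eq_zero hF (fun f => by
        by_cases hf : f ∈ S
        · exact Or.inr (Finset.piecewise_eq_of_mem _ _ _ hf)
        · rw [Finset.piecewise_eq_of_notMem _ _ _ hf]; exact hw f) ih e
      have h2 := zc_update F (S.piecewise (fun _ => 1) w) e (S.piecewise (fun _ => 1) w e)
      rw [Function.update_eq_self, ih, h1, mul_zero] at h2
      rw [Finset.piecewise_insert, zc_update, h1, mul_zero, ← h2]
  have h1 : zc F (F.piecewise (fun _ => 1) w) = (spans F).card := by
    unfold zc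
    rw [Finset.card_eq_sum_ones]
    push_cast
    exact Finset.sum_congr rfl fun T hT => Finset.prod_eq_one fun g hg =>
      Finset.piecewise_eq_of_mem _ _ _ (spans_subset hT hg)
  rw [key F] at h1
  exact (spans_nonempty F).card_pos.ne' (by exact_mod_cast h1.symm)

omit [DecidableEq (Sym2 V)] in
/-- the free uniform spanning forest is strongly Rayleigh -/
theorem fusf_stronglyRayleigh {G : SimpleGraph V} {μ : Measure (G.edgeSet → Bool)}
    (h : IsFUSF G μ) : IsStronglyRayleigh μ := by
  classical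
  obtain ⟨hp, ⟨H, hH⟩, hlim⟩ := h
  refine ⟨hp, fun S z hz => ?_⟩
  have hcV : Countable V := by
    have h1 : (Set.univ : Set V) = ⋃ n, (H n).verts := by
      rw [← Subgraph.verts_iSup, hH.union, Subgraph.verts_top]
    exact Set.countable_univ_iff.1 (h1 ▸ Set.countable_iUnion fun n => (hH.finite n).countable)
  have hcE : Countable (Sym2 V) := Quotient.countable
  set Φ : (G.edgeSet → Bool) → ℂ := fun ω => ∏ x ∈ S, (if ω x = true then z x else 1) with hΦ
  have hΦc : Continuous Φ := continuous_finsetProd _ fun x _ =>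
    (continuous_of_discreteTopology (f := fun b : Bool => if b = true then z x else 1)).comp
      (continuous_apply x)
  set z' : Sym2 V → ℂ := fun e => if he : e ∈ G.edgeSet then z ⟨e, he⟩ else 1 with hz'
  set S' := S.map (Function.Embedding.subtype _) with hS'
  have hzS' : ∀ f ∈ S', 0 < (z' f).im := by
    intro f hf
    obtain ⟨g, hg, rfl⟩ := Finset.mem_map.1 hf
    simpa [hz'] using hz g hg
  set κ : ℝ := ∏ f ∈ S', (1 + ‖1 - z' f‖ / (z' f).im) with hκ
  have hlow : ∀ n, 1 ≤ κ * ‖((∫ ω, (Φ ω).re ∂ust (H n) : ℝ) : ℂ) +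
      (∫ ω, (Φ ω).im ∂ust (H n) : ℝ) * Complex.I‖ := by
    intro n
    have hnd : ∀ e ∈ hH.edges n, ¬ e.IsDiag :=
      fun e he => G.not_isDiag_of_mem_edgeSet ((hH.mem_iff_exists e).2 ⟨n, he⟩)
    have h1 := lower_of_affine (g := zc (hH.edges n)) (fun w e => ⟨_, _, zc_update _ w e⟩)
      (zc_ne_zero hnd) z' S' hzS'
    have h2 : zc (hH.edges n) (S'.piecewise z' fun _ => 1) =
        ∑ T ∈ spans (hH.edges n), Φ fun e => decide ((e : Sym2 V) ∈ T) := by
      refine Finset.sum_congr rfl fun T _ => ?_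
      rw [Finset.prod_piecewise, Finset.prod_const_one, mul_one, Finset.inter_comm,
        ← Finset.filter_mem_eq_inter, Finset.prod_filter, hS', Finset.prod_map]
      refine Finset.prod_congr rfl fun x _ => ?_
      simp [hz']
    have hc : (0 : ℝ) < (spans (hH.edges n)).card := by
      exact_mod_cast (spans_nonempty _).card_pos
    have h3 : zc (hH.edges n) (fun _ => 1) = (spans (hH.edges n)).card := by simp [zc]
    rw [h3, h2, Complex.norm_natCast] at h1
    rw [integral_ust (H n) (hH.connected n) _ (hH.coe_edges n),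
      integral_ust (H n) (hH.connected n) _ (hH.coe_edges n), ← Complex.re_sum, ← Complex.im_sum]
    push_cast
    rw [div_mul_eq_mul_div, ← add_div, Complex.re_add_im, norm_div, Complex.norm_natCast,
      ← mul_div_assoc, one_le_div hc]
    exact h1
  have hre := hlim H hH ⟨fun ω => (Φ ω).re, Complex.continuous_re.comp hΦc⟩
  have him := hlim H hH ⟨fun ω => (Φ ω).im, Complex.continuous_im.comp hΦc⟩
  have h4 := ge_of_tendsto' ((((Complex.continuous_ofReal.tendsto _).comp hre).add
    (((Complex.continuous_ofReal.tendsto _).comp him).mul_const Complex.I)).norm.const_mul κ) hlow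
  have hint : Integrable Φ μ := (BoundedContinuousFunction.mkOfCompact ⟨Φ, hΦc⟩).integrable μ
  have h5 := integral_re_add_im hint
  intro h0
  have h6 : ((∫ ω, (Φ ω).re ∂μ : ℝ) : ℂ) + (∫ ω, (Φ ω).im ∂μ : ℝ) * Complex.I = 0 :=
    h5.trans h0
  simp only [ContinuousMap.coe_mk] at h4
  rw [h6, norm_zero, mul_zero] at h4
  linarith

end Vale.Agent.N143
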